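import Vale.Agent.P065.H183.JView
import Vale.Agent.P065.UB.H822.Core

/-!
# P065, upper bound, block NORMDROP: steep windows and long windows are few (helper855)
-/

set_option autoImplicit false

namespace Vale.Agent.P065.UB.H855

open Finset RankAux H183

/-- a large subfamily of the windows -/
theorem jview_sub {K K' lam : ℝ} {Q : Finset Pt} {W W' : Finset ℕ} {I : ℕ → Set ℝ}
    {R : ℕ → Finset Pt} (h : JView K lam Q W I R) (hW : W' ⊆ W) (hK : K ≤ K')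
    (hc : lam ^ 2 ≤ K' * #W') : JView K' lam Q W' I R := by
  have hl := h.one
  have hK2 := h.two
  refine ⟨h.two.trans hK, h.one, h.xinj, fun w hw => h.conn w (hW hw),
    fun w hw w' hw' => h.disj w (hW hw) w' (hW hw'), ?_, hc, fun w hw => h.subR w (hW hw),
    fun w hw => ?_, fun w hw => ?_, fun x hx => ?_, fun w hw M hM => ?_, fun S H hH Z hZ => ?_⟩
  · have h1 : (#W' : ℝ) ≤ #W := by exact_mod_cast card_le_card hW
    exact h1.trans (h.cardW.trans (mul_le_mul_of_nonneg_right hK (by positivity)))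
  · exact (h.cardR w (hW hw)).trans (mul_le_mul_of_nonneg_right hK (by positivity))
  · refine (h.cardR' w (hW hw)).trans ?_
    have : K * lam ≤ K' * lam := mul_le_mul_of_nonneg_right hK (by linarith)
    exact mul_le_mul_of_nonneg_right this (by positivity)
  · have h1 : (#{w ∈ W' | x ∈ R w} : ℝ) ≤ #{w ∈ W | x ∈ R w} := by
      exact_mod_cast card_le_card (filter_subset_filter _ hW)
    exact h1.trans ((h.touch x hx).trans (mul_le_mul_of_nonneg_right hK (by linarith)))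
  · refine (h.join w (hW hw) M hM).trans ?_
    have : K * (#Q : ℝ) ^ 4 ≤ K' * (#Q : ℝ) ^ 4 := mul_le_mul_of_nonneg_right hK (by positivity)
    exact mul_le_mul_of_nonneg_right this (by positivity)
  · have h1 := h.star S H hH Z hZ
    have h2 : ∑ w ∈ W', (#(R w ∩ Z) : ℝ) ^ 3 ≤ ∑ w ∈ W, (#(R w ∩ Z) : ℝ) ^ 3 :=
      sum_le_sum_of_subset_of_nonneg hW fun _ _ _ => by positivity
    refine (mul_le_mul_of_nonneg_left h2 (by linarith)).trans (h1.trans ?_)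
    have : K * (#S + 1 : ℝ) ^ 3 ≤ K' * (#S + 1 : ℝ) ^ 3 :=
      mul_le_mul_of_nonneg_right hK (by positivity)
    exact mul_le_mul_of_nonneg_right this (by positivity)

section drop

variable {K lam ρ τ M : ℝ} {Q S : Finset Pt} {W : Finset ℕ} {I : ℕ → Set ℝ} {R : ℕ → Finset Pt}

/-- a window has many joined pairs -/
theorem card_Sw_low (h : JView K lam Q W I R) (hQ : Q.Nonempty)
    (hbig : 2 * K ^ 7 * lam ^ 2 ≤ (#Q : ℝ) ^ 2) {w : ℕ} (hw : w ∈ W) :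
    (#Q : ℝ) ^ 2 ≤ 2 * (K ^ 7 * lam ^ 2) * #(Sw (R w) (I w)) := by
  have hl := h.one
  have hK2 := h.two
  have hQ0 : (0 : ℝ) < #Q := by exact_mod_cast card_pos.2 hQ
  have h1 := h.join w hw (R w) (Subset.refl _)
  have h2 := h.cardR' w hw
  have h3 : (#Q : ℝ) ^ 6 ≤ (K * lam * #(R w)) ^ 6 := pow_le_pow_left₀ (by positivity) h2 6
  have h4 : (#Q : ℝ) ^ 2 * (#Q : ℝ) ^ 4 ≤
      (K ^ 7 * lam ^ 2 * (#(Sw (R w) (I w)) + 1)) * (#Q : ℝ) ^ 4 := by
    calc (#Q : ℝ) ^ 2 * (#Q : ℝ) ^ 4 = (#Q : ℝ) ^ 6 := by ring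
      _ ≤ (K * lam * #(R w)) ^ 6 := h3
      _ = (K ^ 6 * lam ^ 2) * (lam ^ 4 * (#(R w) : ℝ) ^ 6) := by ring
      _ ≤ (K ^ 6 * lam ^ 2) * (K * (#Q : ℝ) ^ 4 * (#(Sw (R w) (I w)) + 1)) :=
          mul_le_mul_of_nonneg_left h1 (by positivity)
      _ = _ := by ring
  have h5 := le_of_mul_le_mul_right h4 (by positivity)
  nlinarith

open Classical in
/-- the steep windows -/
theorem card_steep (h : JView K lam Q W I R) (hQ : Q.Nonempty)
    (hbig : 2 * K ^ 7 * lam ^ 2 ≤ (#Q : ℝ) ^ 2) (hS : S ⊆ Q) (hRS : ∀ w ∈ W, R w ⊆ S)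
    (hv : ∀ p ∈ S, |p.2| ≤ 1) (hρ : 0 < ρ) (hM : 0 < M)
    (strip : ∀ x, M * (#{p ∈ S | x ≤ p.1 ∧ p.1 ≤ x + ρ} : ℝ) ≤ #Q) :
    M * (#{w ∈ W | ∀ s ∈ I w, 2 / ρ < |s|} : ℝ) ≤ 2 * K ^ 7 * lam ^ 2 := by
  set A : Finset ℕ := {w ∈ W | ∀ s ∈ I w, 2 / ρ < |s|} with hA
  have hl := h.one
  have hK2 := h.two
  have hQ0 : (0 : ℝ) < #Q := by exact_mod_cast card_pos.2 hQ
  have memA : ∀ w ∈ A, w ∈ W ∧ ∀ s ∈ I w, 2 / ρ < |s| := by
    intro w hw
    simpa only [hA, mem_filter] using hw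
  set T : Finset (Pt × Pt) := {e ∈ S ×ˢ S | e.1.1 ≤ e.2.1 ∧ e.2.1 ≤ e.1.1 + ρ} with hT
  -- the joined pairs of the steep windows
  have h1 : ∑ w ∈ A, #(Sw (R w) (I w)) ≤ #T := by
    rw [← card_biUnion]
    · refine card_le_card fun e he => ?_
      obtain ⟨w, hw, hew⟩ := mem_biUnion.1 he
      simp only [Sw, mem_filter, mem_product] at hew
      obtain ⟨⟨e1, e2⟩, e3, e4⟩ := hew
      obtain ⟨hwW, hst⟩ := memA w hw
      have m1 := hRS w hwW e1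
      have m2 := hRS w hwW e2
      have hs := hst _ e4
      simp only [hT, mem_filter, mem_product]
      refine ⟨⟨m1, m2⟩, e3.le, ?_⟩
      have hd : 0 < e.2.1 - e.1.1 := by linarith
      have h5 : |sl e.1 e.2| * (e.2.1 - e.1.1) ≤ 2 := by
        unfold sl
        rw [abs_div, abs_of_pos hd, div_mul_cancel₀ _ hd.ne']
        have := abs_le.1 (hv _ m1)
        have := abs_le.1 (hv _ m2)
        rw [abs_le]
        constructor <;> linarith
      have h6 : 2 / ρ * (e.2.1 - e.1.1) ≤ 2 :=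
        (mul_le_mul_of_nonneg_right hs.le hd.le).trans h5
      rw [div_mul_eq_mul_div, div_le_iff₀ hρ] at h6
      linarith
    · intro w hw w' hw' hne
      rw [Function.onFun, Finset.disjoint_left]
      intro e he he'
      simp only [Sw, mem_filter, mem_product] at he he'
      exact Set.disjoint_left.1 (h.disj w (memA w hw).1 w' (memA w' hw').1 hne) he.2.2 he'.2.2
  have h2 : M * (#T : ℝ) ≤ (#Q : ℝ) ^ 2 := by
    have h3 : (#T : ℝ) = ∑ p ∈ S, (#{q ∈ S | p.1 ≤ q.1 ∧ q.1 ≤ p.1 + ρ} : ℝ) := by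
      have : #T = ∑ p ∈ S, #{q ∈ S | p.1 ≤ q.1 ∧ q.1 ≤ p.1 + ρ} := by
        rw [hT, card_filter, sum_product]
        refine sum_congr rfl fun p _ => ?_
        rw [card_filter]
      rw [this]
      push_cast
      rfl
    rw [h3, mul_sum]
    calc ∑ p ∈ S, M * (#{q ∈ S | p.1 ≤ q.1 ∧ q.1 ≤ p.1 + ρ} : ℝ) ≤ ∑ _p ∈ S, (#Q : ℝ) :=
          sum_le_sum fun p _ => strip p.1
      _ = #S * #Q := by rw [sum_const, nsmul_eq_mul]
      _ ≤ #Q * #Q := by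
          refine mul_le_mul_of_nonneg_right ?_ hQ0.le
          exact_mod_cast card_le_card hS
      _ = _ := by ring
  have h4 : #A * (#Q : ℝ) ^ 2 ≤ 2 * (K ^ 7 * lam ^ 2) * #T := by
    calc #A * (#Q : ℝ) ^ 2 = ∑ _w ∈ A, (#Q : ℝ) ^ 2 := by rw [sum_const, nsmul_eq_mul]
      _ ≤ ∑ w ∈ A, 2 * (K ^ 7 * lam ^ 2) * (#(Sw (R w) (I w)) : ℝ) :=
          sum_le_sum fun w hw => card_Sw_low h hQ hbig (memA w hw).1
      _ = 2 * (K ^ 7 * lam ^ 2) * ((∑ w ∈ A, #(Sw (R w) (I w)) : ℕ) : ℝ) := by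
          rw [← mul_sum]; push_cast; rfl
      _ ≤ 2 * (K ^ 7 * lam ^ 2) * #T := by
          refine mul_le_mul_of_nonneg_left ?_ (by positivity)
          exact_mod_cast h1
  have h5 : (M * #A) * (#Q : ℝ) ^ 2 ≤ (2 * K ^ 7 * lam ^ 2) * (#Q : ℝ) ^ 2 := by
    calc (M * #A) * (#Q : ℝ) ^ 2 = M * (#A * (#Q : ℝ) ^ 2) := by ring
      _ ≤ M * (2 * (K ^ 7 * lam ^ 2) * #T) := mul_le_mul_of_nonneg_left h4 hM.le
      _ = 2 * (K ^ 7 * lam ^ 2) * (M * #T) := by ring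
      _ ≤ 2 * (K ^ 7 * lam ^ 2) * (#Q : ℝ) ^ 2 := mul_le_mul_of_nonneg_left h2 (by positivity)
      _ = _ := by ring
  exact le_of_mul_le_mul_right h5 (by positivity)

open Classical in
/-- windows which contain a fixed slope -/
theorem card_contains (h : JView K lam Q W I R) (s : ℝ) : #{w ∈ W | s ∈ I w} ≤ 1 := by
  rw [card_le_one]
  intro w hw w' hw'
  rw [mem_filter] at hw hw'
  by_contra hne
  exact Set.disjoint_left.1 (h.disj w hw.1 w' hw'.1 hne) hw.2 hw'.2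

/-- **ND1**: steep windows and long windows are few -/
theorem drop_windows (h : JView K lam Q W I R) (hQ : Q.Nonempty)
    (hbig : 2 * K ^ 7 * lam ^ 2 ≤ (#Q : ℝ) ^ 2) (hS : S ⊆ Q) (hRS : ∀ w ∈ W, R w ⊆ S)
    (hv : ∀ p ∈ S, |p.2| ≤ 1) (hρ : 0 < ρ) (hτ : 0 < τ) (hM : 16 * K ^ 8 ≤ M)
    (strip : ∀ x, M * (#{p ∈ S | x ≤ p.1 ∧ p.1 ≤ x + ρ} : ℝ) ≤ #Q)
    (hρτ : 8 * K * (4 / (ρ * τ) + 4) ≤ lam ^ 2) :
    ∃ W2 ⊆ W, JView (2 * K) lam Q W2 I R ∧
      ∀ w ∈ W2, (∀ s ∈ I w, |s| ≤ 2 / ρ) ∧ ∀ s ∈ I w, ∀ t ∈ I w, |s - t| ≤ τ := by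
  classical
  have hl := h.one
  have hK2 := h.two
  have hK8 : 0 < K ^ 8 := by positivity
  have hM0 : 0 < M := by linarith
  set A : Finset ℕ := {w ∈ W | ∀ s ∈ I w, 2 / ρ < |s|} with hA
  set B1 : Finset ℕ := {w ∈ W | 2 / ρ ∈ I w} with hB1
  set B2 : Finset ℕ := {w ∈ W | -(2 / ρ) ∈ I w} with hB2
  set L : Finset ℕ := {w ∈ W | (∃ s ∈ I w, ∃ t ∈ I w, s + τ ≤ t) ∧
    ∃ z ∈ I w, -(2 / ρ) ≤ z ∧ z ≤ -(2 / ρ) + 4 / ρ} with hL
  have hAc : (#A : ℝ) ≤ lam ^ 2 / (8 * K) := by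
    have h1 := card_steep h hQ hbig hS hRS hv hρ hM0 strip
    rw [le_div_iff₀ (by positivity)]
    have h2 : 16 * K ^ 8 * (#A : ℝ) ≤ 2 * K ^ 7 * lam ^ 2 :=
      (mul_le_mul_of_nonneg_right hM (by positivity)).trans h1
    have h3 : (2 * K ^ 7) * (#A * (8 * K)) ≤ (2 * K ^ 7) * lam ^ 2 := by
      calc (2 * K ^ 7) * (#A * (8 * K)) = 16 * K ^ 8 * (#A : ℝ) := by ring
        _ ≤ _ := h2
    exact le_of_mul_le_mul_left h3 (by positivity)
  have hB1c : (#B1 : ℝ) ≤ 1 := by exact_mod_cast card_contains h (2 / ρ)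
  have hB2c : (#B2 : ℝ) ≤ 1 := by exact_mod_cast card_contains h (-(2 / ρ))
  have memL : ∀ w ∈ L, w ∈ W ∧ (∃ s ∈ I w, ∃ t ∈ I w, s + τ ≤ t) ∧
      ∃ z ∈ I w, -(2 / ρ) ≤ z ∧ z ≤ -(2 / ρ) + 4 / ρ := by
    intro w hw
    simpa only [hL, mem_filter] using hw
  have hLc : (#L : ℝ) ≤ 4 / (ρ * τ) + 2 := by
    have := H822.card_long_intervals L I (fun w hw => h.conn w (memL w hw).1)
      (fun w hw w' hw' hne => h.disj w (memL w hw).1 w' (memL w' hw').1 hne) hτ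
      (fun w hw => (memL w hw).2.1) (fun w hw => (memL w hw).2.2) (by positivity)
    rwa [div_div] at this
  set W2 : Finset ℕ := W \ (A ∪ B1 ∪ B2 ∪ L) with hW2
  have hW2c : lam ^ 2 ≤ 2 * K * #W2 := by
    have h1 : #W ≤ #W2 + (#A + #B1 + #B2 + #L) := by
      have h2 : #W ≤ #W2 + #(A ∪ B1 ∪ B2 ∪ L) := by
        have := card_le_card_sdiff_add_card (s := W) (t := A ∪ B1 ∪ B2 ∪ L)
        exact this
      have h3 : #(A ∪ B1 ∪ B2 ∪ L) ≤ #A + #B1 + #B2 + #L := by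
        refine (card_union_le _ _).trans ?_
        have h4 : #(A ∪ B1 ∪ B2) ≤ #A + #B1 + #B2 := by
          refine (card_union_le _ _).trans ?_
          have := card_union_le A B1
          omega
        omega
      omega
    have h2 : (#W : ℝ) ≤ #W2 + (#A + #B1 + #B2 + #L) := by exact_mod_cast h1
    have h3 := h.cardW'
    have h4 : (#A : ℝ) + #B1 + #B2 + #L ≤ lam ^ 2 / (8 * K) + (4 / (ρ * τ) + 4) := by linarith
    have h5 : 4 / (ρ * τ) + 4 ≤ lam ^ 2 / (8 * K) := by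
      rw [le_div_iff₀ (by positivity)]
      linarith
    have h6 : lam ^ 2 ≤ K * (#W2 + 2 * (lam ^ 2 / (8 * K))) :=
      h3.trans (mul_le_mul_of_nonneg_left (by linarith) (by linarith))
    have h7 : K * (2 * (lam ^ 2 / (8 * K))) = lam ^ 2 / 4 := by
      field_simp
      norm_num
    rw [mul_add, h7] at h6
    have h8 : 0 ≤ K * (#W2 : ℝ) := by positivity
    nlinarith [sq_nonneg lam]
  refine ⟨W2, sdiff_subset, jview_sub h sdiff_subset (by linarith) hW2c, fun w hw => ?_⟩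
  rw [hW2, mem_sdiff] at hw
  obtain ⟨hwW, hw2⟩ := hw
  simp only [mem_union, not_or] at hw2
  obtain ⟨⟨⟨n1, n2⟩, n3⟩, n4⟩ := hw2
  have hconn := h.conn w hwW
  -- some slope is not steep
  have e1 : ∃ s ∈ I w, |s| ≤ 2 / ρ := by
    by_contra hc
    push Not at hc
    exact n1 (by rw [hA, mem_filter]; exact ⟨hwW, hc⟩)
  obtain ⟨s₀, hs₀, hs₀'⟩ := e1
  have f2 : 2 / ρ ∉ I w := fun hh => n2 (by rw [hB1, mem_filter]; exact ⟨hwW, hh⟩)
  have f3 : -(2 / ρ) ∉ I w := fun hh => n3 (by rw [hB2, mem_filter]; exact ⟨hwW, hh⟩)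
  have hall : ∀ s ∈ I w, |s| ≤ 2 / ρ := by
    intro s hs
    by_contra hc
    push Not at hc
    have hab := abs_le.1 hs₀'
    rcases lt_abs.1 hc with hc | hc
    · exact f2 (hconn.out hs₀ hs ⟨hab.2, hc.le⟩)
    · exact f3 (hconn.out hs hs₀ ⟨by linarith, hab.1⟩)
  refine ⟨hall, fun s hs t ht => ?_⟩
  by_contra hc
  push Not at hc
  apply n4
  rw [hL, mem_filter]
  have hab := abs_le.1 hs₀'
  have h4ρ : 4 / ρ = 2 / ρ + 2 / ρ := by ring
  refine ⟨hwW, ?_, s₀, hs₀, hab.1, by rw [h4ρ]; linarith⟩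
  rcases lt_abs.1 hc with hc | hc
  · exact ⟨t, ht, s, hs, by linarith⟩
  · exact ⟨s, hs, t, ht, by linarith⟩

end drop

end Vale.Agent.P065.UB.H855
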