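import Vale.Agent.P065.H183.JView
import Vale.Agent.P065.UB.H139.Aff

/-!
# P065, upper bound, block NORMDROP: affine images of a `JView` (helper855)
-/

set_option autoImplicit false

namespace Vale.Agent.P065.UB.H855

open Finset RankAux H183 H139

variable {α β γ δ ε : ℝ}

theorem isHalf_af (hα : 0 < α) {H : Set Pt} (hH : IsHalf H) :
    IsHalf {p | af α β γ δ ε p ∈ H} := by
  obtain ⟨a, b, hab⟩ := hH
  refine ⟨a * α + b * δ, b * γ, fun z z' h h' => hab _ _ ?_ h'⟩
  simp only [af_fst, af_snd]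
  linarith

open Classical in
/-- **ND2** affine images of a `JView` -/
theorem jview_af {K lam : ℝ} {Q : Finset Pt} {W : Finset ℕ} {I : ℕ → Set ℝ} {R : ℕ → Finset Pt}
    (h : JView K lam Q W I R) (hα : 0 < α) (hγ : 0 < γ) :
    JView K lam (Q.image (af α β γ δ ε)) W (fun w => am α γ δ '' I w)
      (fun w => (R w).image (af α β γ δ ε)) := by
  have inj : Function.Injective (af α β γ δ ε) := af_inj hα hγ
  have hmem : ∀ (S : Finset Pt) (p : Pt), af α β γ δ ε p ∈ S.image (af α β γ δ ε) ↔ p ∈ S := by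
    intro S p
    rw [mem_image]
    exact ⟨fun ⟨q, hq, h1⟩ => by rwa [← inj h1], fun hp => ⟨p, hp, rfl⟩⟩
  refine ⟨h.two, h.one, ?_, ?_, ?_, h.cardW, h.cardW', ?_, ?_, ?_, ?_, ?_, ?_⟩
  · intro p hp q hq hpq
    obtain ⟨p', hp', rfl⟩ := mem_image.1 hp
    obtain ⟨q', hq', rfl⟩ := mem_image.1 hq
    rw [fst_eq hα] at hpq
    rw [h.xinj p' hp' q' hq' hpq]
  · intro w hw
    exact ordConnected_of hα hγ (mem_am_image hα hγ (I w)) (h.conn w hw)
  · intro w hw w' hw' hne
    exact (Set.disjoint_image_iff (am_inj hα hγ)).2 (h.disj w hw w' hw' hne)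
  · intro w hw
    exact image_subset_image (h.subR w hw)
  · intro w hw
    rw [card_image_of_injective _ inj, card_image_of_injective _ inj]
    exact h.cardR w hw
  · intro w hw
    rw [card_image_of_injective _ inj, card_image_of_injective _ inj]
    exact h.cardR' w hw
  · intro x hx
    obtain ⟨x', hx', rfl⟩ := mem_image.1 hx
    have h1 := h.touch x' hx'
    simp only [hmem]
    exact h1
  · intro w hw M hM
    rw [card_image_of_injective _ inj]
    obtain ⟨M', hM'⟩ : ∃ M' : Finset Pt, M' = {p ∈ R w | af α β γ δ ε p ∈ M} := ⟨_, rfl⟩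
    have hMM : M = M'.image (af α β γ δ ε) := by
      ext p
      rw [mem_image]
      constructor
      · intro hp
        obtain ⟨p', hp', rfl⟩ := mem_image.1 (hM hp)
        exact ⟨p', by rw [hM', mem_filter]; exact ⟨hp', hp⟩, rfl⟩
      · rintro ⟨p', hp', rfl⟩
        rw [hM', mem_filter] at hp'
        exact hp'.2
    have hSw : Sw M (am α γ δ '' I w) = (Sw M' (I w)).image
        (Prod.map (af α β γ δ ε) (af α β γ δ ε)) := by
      ext ⟨p, q⟩
      rw [mem_image]
      simp only [Sw, mem_filter, mem_product]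
      constructor
      · rintro ⟨⟨h1, h2⟩, h3, h4⟩
        rw [hMM] at h1 h2
        obtain ⟨p', hp', rfl⟩ := mem_image.1 h1
        obtain ⟨q', hq', rfl⟩ := mem_image.1 h2
        rw [fst_lt hα] at h3
        rw [sl_af hα h3.ne, mem_am_image hα hγ] at h4
        exact ⟨(p', q'), ⟨⟨hp', hq'⟩, h3, h4⟩, rfl⟩
      · rintro ⟨⟨p', q'⟩, ⟨⟨h1, h2⟩, h3, h4⟩, heq⟩
        simp only [Prod.map_apply, Prod.mk.injEq] at heq
        obtain ⟨rfl, rfl⟩ := heq
        rw [hMM]
        refine ⟨⟨mem_image_of_mem _ h1, mem_image_of_mem _ h2⟩, (fst_lt hα _ _).2 h3, ?_⟩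
        rw [sl_af hα h3.ne, mem_am_image hα hγ]
        exact h4
    rw [hSw, card_image_of_injective _ (pm_inj hα hγ), hMM, card_image_of_injective _ inj]
    exact h.join w hw M' (by rw [hM']; exact filter_subset _ _)
  · intro S H hH Z hZ
    obtain ⟨Z', hZ'⟩ : ∃ Z' : Finset Pt, Z' = {p ∈ Q | af α β γ δ ε p ∈ Z} := ⟨_, rfl⟩
    have hZZ : Z = Z'.image (af α β γ δ ε) := by
      ext p
      rw [mem_image]
      constructor
      · intro hp
        obtain ⟨p', hp', rfl⟩ := mem_image.1 ((hZ p).1 hp).1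
        exact ⟨p', by rw [hZ', mem_filter]; exact ⟨hp', hp⟩, rfl⟩
      · rintro ⟨p', hp', rfl⟩
        rw [hZ', mem_filter] at hp'
        exact hp'.2
    have h1 := h.star S (fun i => {p | af α β γ δ ε p ∈ H i}) (fun i hi => isHalf_af hα (hH i hi))
      Z' (fun z => by
        rw [hZ', mem_filter, hZ, hmem]
        simp only [Set.mem_setOf_eq]
        tauto)
    rw [hZZ, card_image_of_injective _ inj, card_image_of_injective _ inj]
    refine le_trans (le_of_eq ?_) h1
    congr 1
    refine sum_congr rfl fun w _ => ?_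
    rw [← image_inter _ _ inj, card_image_of_injective _ inj]

end Vale.Agent.P065.UB.H855
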