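import Vale.Agent.P065.UB.NormDrop.Defs
import Vale.Agent.P065.UB.H855.JAff
import Vale.Agent.P065.UB.H855.Drop

/-!
# P065, upper bound, block NORMDROP: `StAffJ`, `StLight`, `StDrop` (helper855)
-/

set_option autoImplicit false

namespace Vale.Agent.P065.UB.H855

open Finset H183 NormDrop

/-- **AFFJ** -/
theorem stAffJ : StAffJ := fun _ _ _ _ _ _ h _ _ _ _ _ hα hγ => jview_af h hα hγ

theorem dt_eq (p q r : Pt) :
    dt p q r = (q.1 - p.1) * (r.2 - p.2) - (r.1 - p.1) * (q.2 - p.2) := rfl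

/-- **LIGHT** -/
theorem stLight : StLight := by
  intro M κ N S hNC hκ hS T hT hstr
  by_contra hc
  push Not at hc
  obtain ⟨p, hp, q, hq, r, hr, hd⟩ := hNC T hT hc
  obtain ⟨hp1, hp2, hp3⟩ := hS p (hT hp)
  obtain ⟨hq1, hq2, hq3⟩ := hS q (hT hq)
  obtain ⟨hr1, hr2, hr3⟩ := hS r (hT hr)
  rw [dt_eq] at hd
  rcases hstr with ⟨x, hx⟩ | ⟨s, t, hst⟩
  · have a1 := abs_le.1 (hx p hp)
    have a2 := abs_le.1 (hx q hq)
    have a3 := abs_le.1 (hx r hr)
    have b1 := abs_le.1 hp3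
    have b2 := abs_le.1 hq3
    have b3 := abs_le.1 hr3
    have c1 : |(q.1 - p.1) * (r.2 - p.2)| ≤ (κ / 5) * 2 := by
      rw [abs_mul]
      exact mul_le_mul (abs_le.2 ⟨by linarith, by linarith⟩) (abs_le.2 ⟨by linarith, by linarith⟩)
        (abs_nonneg _) (by positivity)
    have c2 : |(r.1 - p.1) * (q.2 - p.2)| ≤ (κ / 5) * 2 := by
      rw [abs_mul]
      exact mul_le_mul (abs_le.2 ⟨by linarith, by linarith⟩) (abs_le.2 ⟨by linarith, by linarith⟩)
        (abs_nonneg _) (by positivity)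
    have c3 := abs_sub ((q.1 - p.1) * (r.2 - p.2)) ((r.1 - p.1) * (q.2 - p.2))
    linarith
  · have a1 := abs_le.1 (hst p hp)
    have a2 := abs_le.1 (hst q hq)
    have a3 := abs_le.1 (hst r hr)
    have e : (q.1 - p.1) * (r.2 - p.2) - (r.1 - p.1) * (q.2 - p.2) =
        (q.1 - p.1) * ((r.2 - s * r.1 - t) - (p.2 - s * p.1 - t)) -
          (r.1 - p.1) * ((q.2 - s * q.1 - t) - (p.2 - s * p.1 - t)) := by ring
    rw [e] at hd
    have c1 : |(q.1 - p.1) * ((r.2 - s * r.1 - t) - (p.2 - s * p.1 - t))| ≤ 1 * (κ / 5) := by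
      rw [abs_mul]
      exact mul_le_mul (abs_le.2 ⟨by linarith, by linarith⟩) (abs_le.2 ⟨by linarith, by linarith⟩)
        (abs_nonneg _) (by positivity)
    have c2 : |(r.1 - p.1) * ((q.2 - s * q.1 - t) - (p.2 - s * p.1 - t))| ≤ 1 * (κ / 5) := by
      rw [abs_mul]
      exact mul_le_mul (abs_le.2 ⟨by linarith, by linarith⟩) (abs_le.2 ⟨by linarith, by linarith⟩)
        (abs_nonneg _) (by positivity)
    have c3 := abs_sub ((q.1 - p.1) * ((r.2 - s * r.1 - t) - (p.2 - s * p.1 - t)))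
      ((r.1 - p.1) * ((q.2 - s * q.1 - t) - (p.2 - s * p.1 - t)))
    linarith

/-- **DROP** -/
theorem stDrop : StDrop := by
  refine ⟨19, fun K lam κ M Q W I R S h hlQ hS hRS hbox hNC hκ hκ1 hKl hKM => ?_⟩
  have hl := h.one
  have hK2 := h.two
  have hl0 : 0 < lam := by linarith
  have hQ0 : (0 : ℝ) < #Q := lt_of_lt_of_le (by positivity) hlQ
  have hQ : Q.Nonempty := card_pos.1 (by exact_mod_cast hQ0)
  have hpow : ∀ m : ℕ, (2 : ℝ) ^ m ≤ K ^ m := fun m => pow_le_pow_left₀ (by norm_num) hK2 m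
  have hK1 : 1 ≤ K := by linarith
  obtain ⟨s, hs⟩ : ∃ s : ℝ, s = Real.sqrt lam := ⟨_, rfl⟩
  have hs2 : s ^ 2 = lam := by rw [hs]; exact Real.sq_sqrt hl0.le
  have hs0 : 0 < s := by rw [hs]; exact Real.sqrt_pos.2 hl0
  -- the size of `s`
  have h320 : 320 * K ≤ κ * s := by
    have h1 : (320 * K) ^ 2 ≤ (κ * s) ^ 2 := by
      calc (320 * K) ^ 2 = 102400 * K ^ 2 := by ring
        _ ≤ 2 ^ 17 * K ^ 2 := by
            have : 0 ≤ K ^ 2 := by positivity
            nlinarith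
        _ ≤ K ^ 17 * K ^ 2 := mul_le_mul_of_nonneg_right (hpow 17) (by positivity)
        _ = K ^ 19 := by ring
        _ ≤ κ ^ 2 * lam := hKl
        _ = (κ * s) ^ 2 := by rw [mul_pow, hs2]
    exact le_of_sq_le_sq h1 (by positivity)
  have hlam19 : K ^ 19 ≤ lam := by
    refine hKl.trans ?_
    have : κ ^ 2 ≤ 1 := pow_le_one₀ hκ.le hκ1
    calc κ ^ 2 * lam ≤ 1 * lam := mul_le_mul_of_nonneg_right this hl0.le
      _ = lam := one_mul _
  have hτ : 0 < 1 / (lam * s) := by positivity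
  obtain ⟨W2, hW2, hJ, hw2⟩ := drop_windows (ρ := κ / 5) (τ := 1 / (lam * s)) (M := M) h hQ
    (by
      have h1 : 2 * K ^ 7 ≤ lam := by
        refine le_trans ?_ hlam19
        calc 2 * K ^ 7 ≤ K * K ^ 7 := mul_le_mul_of_nonneg_right hK2 (by positivity)
          _ = K ^ 8 := by ring
          _ ≤ K ^ 19 := pow_le_pow_right₀ hK1 (by norm_num)
      calc 2 * K ^ 7 * lam ^ 2 ≤ lam * lam ^ 2 := mul_le_mul_of_nonneg_right h1 (by positivity)
        _ = lam * lam ^ 2 * 1 := by ring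
        _ ≤ lam * lam ^ 2 * lam := mul_le_mul_of_nonneg_left hl (by positivity)
        _ = (lam ^ 2) ^ 2 := by ring
        _ ≤ (#Q : ℝ) ^ 2 := pow_le_pow_left₀ (by positivity) hlQ 2)
    hS hRS (fun p hp => (hbox p hp).2.2) (by positivity) hτ
    (by
      refine le_trans ?_ hKM
      calc 16 * K ^ 8 = 2 ^ 4 * K ^ 8 := by norm_num
        _ ≤ K ^ 4 * K ^ 8 := mul_le_mul_of_nonneg_right (hpow 4) (by positivity)
        _ = K ^ 12 := by ring
        _ ≤ K ^ 19 := pow_le_pow_right₀ hK1 (by norm_num))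
    (by
      intro x
      refine (stLight M κ #Q S hNC hκ hbox _ (filter_subset _ _) (Or.inl ⟨x + κ / 10, ?_⟩)).le
      intro p hp
      rw [mem_filter] at hp
      rw [abs_le]
      constructor <;> linarith [hp.2.1, hp.2.2])
    (by
      have e1 : 4 / (κ / 5 * (1 / (lam * s))) = 20 * lam * s / κ := by
        field_simp
        norm_num
      rw [e1]
      have e2 : 8 * K * (20 * lam * s / κ) ≤ lam ^ 2 / 2 := by
        rw [mul_div_assoc', div_le_div_iff₀ hκ (by norm_num)]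
        calc 8 * K * (20 * lam * s) * 2 = (320 * K) * (lam * s) := by ring
          _ ≤ (κ * s) * (lam * s) := mul_le_mul_of_nonneg_right h320 (by positivity)
          _ = s ^ 2 * lam * κ := by ring
          _ = lam ^ 2 * κ := by rw [hs2]; ring
      have e3 : 8 * K * 4 ≤ lam ^ 2 / 2 := by
        have h1 : 64 * K ≤ lam := by
          refine le_trans ?_ hlam19
          calc 64 * K = 2 ^ 6 * K := by norm_num
            _ ≤ K ^ 6 * K := mul_le_mul_of_nonneg_right (hpow 6) (by linarith)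
            _ = K ^ 7 := by ring
            _ ≤ K ^ 19 := pow_le_pow_right₀ hK1 (by norm_num)
        nlinarith
      linarith)
  refine ⟨W2, hW2, jview_sub hJ (Subset.refl _) ?_ ?_, fun w hw x hx => ?_, fun w hw x hx y hy => ?_⟩
  · calc 2 * K ≤ K * K := mul_le_mul_of_nonneg_right hK2 (by linarith)
      _ = K ^ 2 := by ring
      _ ≤ K ^ 19 := pow_le_pow_right₀ hK1 (by norm_num)
  · refine hJ.cardW'.trans (mul_le_mul_of_nonneg_right ?_ (by positivity))
    calc 2 * K ≤ K * K := mul_le_mul_of_nonneg_right hK2 (by linarith)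
      _ = K ^ 2 := by ring
      _ ≤ K ^ 19 := pow_le_pow_right₀ hK1 (by norm_num)
  · refine ((hw2 w hw).1 x hx).trans ?_
    rw [div_div_eq_mul_div, div_le_div_iff_of_pos_right hκ]
    norm_num
  · have h1 := (hw2 w hw).2 x hx y hy
    have h2 : (x - y) ^ 2 ≤ (1 / (lam * s)) ^ 2 := by
      rw [← sq_abs (x - y)]
      exact pow_le_pow_left₀ (abs_nonneg _) h1 2
    calc lam ^ 3 * (x - y) ^ 2 ≤ lam ^ 3 * (1 / (lam * s)) ^ 2 :=
          mul_le_mul_of_nonneg_left h2 (by positivity)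
      _ = lam ^ 3 / (lam ^ 2 * s ^ 2) := by field_simp
      _ = 1 := by rw [hs2]; field_simp

end Vale.Agent.P065.UB.H855
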