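import Vale.Agent.P065.UB.H855.Fin

/-!
# P065, upper bound, block P-NORM: **StP0** (helper855)

`StP0` of `UB/P/Defs.lean`: windows, popular length, time and space normalisation for point sets
with integer coordinates at most `n ^ A`.
-/

set_option autoImplicit false

namespace Vale.Agent.P065.UB.H855

open Finset P

/-- **P-NORM** -/
theorem stP0 : StP0 := by
  classical
  intro A
  refine ⟨24 * A + 16, fun c => ?_⟩
  obtain ⟨J, al, Ju, ga, n₁, p1, p2, p3, p4, p5, p6, p7, p8, p9, p10, p11, p12, p13, p14⟩ :=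
    H602.par A c
  have hc0 : (0 : ℝ) ≤ c := Nat.cast_nonneg c
  have hbe : H602.be c ≤ 1 / 32 := by
    unfold H602.be
    refine one_div_le_one_div_of_le (by norm_num) ?_
    nlinarith
  obtain ⟨κ, hκ⟩ : ∃ κ : ℝ, κ = al 0 / 100 := ⟨_, rfl⟩
  have hκ0 : 0 < κ := by rw [hκ]; have := p1 0; positivity
  have hal0 : al 0 = 100 * κ := by rw [hκ]; ring
  have hκ1 : κ < 1 / 100 := by
    have := p12 0
    linarith
  obtain ⟨ε, hε, n₂, hn₂1, raw⟩ := raw A hκ0 hκ1
  obtain ⟨C, hC0, hC⟩ := ed_up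
  obtain ⟨n₃, hn₃1, hn₃⟩ := ev_le (max 16 C) hκ0
  refine ⟨ε, hε, max (max n₁ n₂) (max n₃ 100), fun P k hP hIC hn hEd => ?_⟩
  have m1 : n₁ ≤ #P := (le_max_left n₁ n₂).trans ((le_max_left _ _).trans hn)
  have m2 : n₂ ≤ #P := (le_max_right n₁ n₂).trans ((le_max_left _ _).trans hn)
  have m3 : n₃ ≤ #P := (le_max_left n₃ 100).trans ((le_max_right _ _).trans hn)
  have m4 : 100 ≤ #P := (le_max_right n₃ 100).trans ((le_max_right _ _).trans hn)
  obtain ⟨Q, W, a, b, N, θ, h⟩ := raw P k hP hIC m2 hEd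
  have hn16 := hn₃ _ m3
  have m1' : ((n₁ : ℕ) : ℝ) ≤ #P := by exact_mod_cast m1
  have m4' : (100 : ℝ) ≤ #P := by exact_mod_cast m4
  obtain ⟨n, hndef⟩ : ∃ n : ℝ, n = (#P : ℝ) := ⟨_, rfl⟩
  rw [← hndef] at h hn16 m1' m4' ⊢
  obtain ⟨lam, hlam⟩ : ∃ lam : ℝ, lam = n ^ (1 / 8 : ℝ) := ⟨_, rfl⟩
  rw [← hlam] at h
  have h16 : 16 ≤ n ^ κ := (le_max_left _ _).trans hn16
  have hCn : C ≤ n ^ κ := (le_max_right _ _).trans hn16
  have hn1 : 1 < n := by linarith
  have hn0 : 0 < n := by linarith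
  have mono : ∀ {u v : ℝ}, u ≤ v → n ^ u ≤ n ^ v := fun h =>
    Real.rpow_le_rpow_of_exponent_le hn1.le h
  have add : ∀ u v : ℝ, n ^ u * n ^ v = n ^ (u + v) := fun u v => (Real.rpow_add hn0 u v).symm
  have pos : ∀ u : ℝ, 0 < n ^ u := fun u => Real.rpow_pos_of_pos hn0 u
  have hl0 : 0 < lam := by rw [hlam]; exact pos _
  have hl2 : lam ^ 2 = n ^ (1 / 4 : ℝ) := by
    rw [hlam, ← Real.rpow_natCast, ← Real.rpow_mul hn0.le]; norm_num
  have hl20 : 0 < lam ^ 2 := by positivity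
  have hN0 : 0 < N := lt_of_lt_of_le (pos _) h.Nlow
  have hq : lam ^ (24 * A + 16) = n ^ (3 * A + 2) := by
    have e1 : lam ^ 8 = n := by
      rw [hlam, ← Real.rpow_natCast, ← Real.rpow_mul hn0.le]; norm_num
    calc lam ^ (24 * A + 16) = (lam ^ 8) ^ (3 * A + 2) := by
          rw [← pow_mul]; congr 1; ring
      _ = _ := by rw [e1]
  have hnA : 0 < n ^ A := by positivity
  have hn2 : 96 ≤ n ^ 2 := by nlinarith
  have h3A : n ^ (3 * A + 2) = n ^ A * (n ^ A) ^ 2 * n ^ 2 := by ring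
  -- time
  obtain ⟨j, hj, t, hT1, hT2⟩ := time_step h (fun j => lam ^ 2 * n ^ (-al j)) J
    (n ^ H602.be c)
    (by
      change lam ^ 2 * n ^ (-al 0) ≤ _
      have e1 : n ^ (2 * κ) * n ^ (-al 0) ≤ 1 := by
        rw [add]
        exact Real.rpow_le_one_of_one_le_of_nonpos hn1.le (by linarith)
      calc lam ^ 2 * n ^ (-al 0) ≤ n ^ (2 * κ) * #W * n ^ (-al 0) :=
            mul_le_mul_of_nonneg_right h.cardW' (pos _).le
        _ = (n ^ (2 * κ) * n ^ (-al 0)) * #W := by ring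
        _ ≤ 1 * #W := mul_le_mul_of_nonneg_right e1 (Nat.cast_nonneg _)
        _ = #W := one_mul _)
    (by
      change 1 < lam ^ 2 * n ^ (-al J)
      rw [hl2, add, p2]
      exact Real.one_lt_rpow hn1 (by linarith))
    (by
      have e1 : n ^ (3 * A + 2) ≤ (n ^ H602.be c) ^ J := by
        rw [← Real.rpow_natCast, ← Real.rpow_natCast, ← Real.rpow_mul hn0.le]
        refine mono ?_
        push_cast
        exact p6
      rw [div_le_iff₀ (lt_of_lt_of_le (by positivity) e1)]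
      calc 4 * n ^ A = 4 * n ^ A * 1 := by ring
        _ ≤ 4 * n ^ A * (8 * (n ^ A) ^ 2 * θ) :=
            mul_le_mul_of_nonneg_left h.th1 (by positivity)
        _ = 32 * (n ^ A * (n ^ A) ^ 2 * θ) := by ring
        _ ≤ n ^ 2 * (n ^ A * (n ^ A) ^ 2 * θ) := by
            refine mul_le_mul_of_nonneg_right (by linarith) ?_
            have := h.th0
            positivity
        _ = θ * n ^ (3 * A + 2) := by rw [h3A]; ring
        _ ≤ θ * (n ^ H602.be c) ^ J := mul_le_mul_of_nonneg_left e1 h.th0.le)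
  change lam ^ 2 * n ^ (-al j) ≤ _ at hT1
  change ∀ x, _ < lam ^ 2 * n ^ (-al (j + 1)) at hT2
  obtain ⟨W1, hW1⟩ : ∃ W1 : Finset ℕ,
    W1 = {w ∈ W | t ≤ a w ∧ a w ≤ t + 4 * n ^ A / (n ^ H602.be c) ^ j} := ⟨_, rfl⟩
  rw [← hW1] at hT1
  have hW1s : W1 ⊆ W := by rw [hW1]; exact filter_subset _ _
  have hW1c : (#W1 : ℝ) ≤ n ^ κ * lam ^ 2 := by
    have : (#W1 : ℝ) ≤ #W := by exact_mod_cast card_le_card hW1s
    exact this.trans h.cardW
  -- space
  have hXl := X_low hn1 hlam hκ1.le h.Nlow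
  obtain ⟨X, hX⟩ : ∃ X : ℝ, X = (N / lam) ^ (4 / 3 : ℝ) := ⟨_, rfl⟩
  rw [← hX] at hXl
  have hX0 : 0 < X := by rw [hX]; exact Real.rpow_pos_of_pos (div_pos hN0 hl0) _
  have hρ : al (j + 1) / (c + 1) ≤ 1 / 32 := by
    have e1 : al (j + 1) / (c + 1) ≤ al (j + 1) := div_le_self (p1 _).le (by linarith)
    linarith [p12 (j + 1)]
  obtain ⟨i, hi, u, hS1, hS2⟩ := space_step h hP hIC hndef (W1 := W1)
    (fun i => lam ^ 2 * X * n ^ (-ga j i)) (Ju j)
    (n ^ (al (j + 1) / (c + 1)))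
    (by
      change lam ^ 2 * X * n ^ (-ga j 0) ≤ _
      have e1 : ∀ w ∈ W1, X * n ^ (-(3 * κ)) ≤ (#(EdIn P k Q (Set.Icc (a w) (b w))) : ℝ) := by
        intro w hw
        have e2 := h.ed w (hW1s hw)
        rw [← hX] at e2
        have e3 : n ^ (3 * κ) * n ^ (-(3 * κ)) = 1 := by
          rw [add, add_neg_cancel, Real.rpow_zero]
        calc X * n ^ (-(3 * κ)) ≤ (n ^ (3 * κ) * #(EdIn P k Q (Set.Icc (a w) (b w)))) *
              n ^ (-(3 * κ)) := mul_le_mul_of_nonneg_right e2 (pos _).le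
          _ = (n ^ (3 * κ) * n ^ (-(3 * κ))) * #(EdIn P k Q (Set.Icc (a w) (b w))) := by ring
          _ = _ := by rw [e3, one_mul]
      calc lam ^ 2 * X * n ^ (-ga j 0) ≤ lam ^ 2 * X * (n ^ (-al j) * n ^ (-(3 * κ))) := by
            refine mul_le_mul_of_nonneg_left ?_ (by positivity)
            rw [add]
            refine mono ?_
            have := p4 j
            have := p11 j
            linarith
        _ = lam ^ 2 * n ^ (-al j) * (X * n ^ (-(3 * κ))) := by ring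
        _ ≤ #W1 * (X * n ^ (-(3 * κ))) := by
            refine mul_le_mul_of_nonneg_right hT1 ?_
            have := pos (-(3 * κ))
            positivity
        _ = ∑ _w ∈ W1, X * n ^ (-(3 * κ)) := by rw [sum_const, nsmul_eq_mul]
        _ ≤ _ := sum_le_sum e1)
    (by
      change #W1 * N < lam ^ 2 * X * n ^ (-ga j (Ju j))
      rw [p5 j hj]
      have e1 : lam ^ 2 * (N / lam * n ^ (1 / 5 : ℝ)) * n ^ (-(al (j + 1) / (c + 1))) ≤
          lam ^ 2 * X * n ^ (-(al (j + 1) / (c + 1))) := by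
        have := pos (-(al (j + 1) / (c + 1)))
        gcongr
      refine lt_of_lt_of_le ?_ e1
      calc #W1 * N ≤ n ^ κ * lam ^ 2 * N := mul_le_mul_of_nonneg_right hW1c hN0.le
        _ = (lam * N) * (n ^ κ * n ^ (1 / 8 : ℝ)) := by rw [← hlam]; ring
        _ < (lam * N) * (n ^ (1 / 5 : ℝ) * n ^ (-(al (j + 1) / (c + 1)))) := by
            refine mul_lt_mul_of_pos_left ?_ (by positivity)
            rw [add, add]
            refine Real.rpow_lt_rpow_of_exponent_lt hn1 ?_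
            have := p12 0
            linarith
        _ = _ := by field_simp)
    (by
      have e1 : n ^ (A + 2) ≤ (n ^ (al (j + 1) / (c + 1))) ^ Ju j := by
        rw [← Real.rpow_natCast, ← Real.rpow_natCast, ← Real.rpow_mul hn0.le]
        refine mono ?_
        push_cast
        exact p7 j hj
      rw [div_lt_one (lt_of_lt_of_le (by positivity) e1)]
      refine lt_of_lt_of_le ?_ e1
      rw [pow_add, mul_comm]
      exact mul_lt_mul_of_pos_left (by linarith) hnA)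
  change lam ^ 2 * X * n ^ (-ga j i) ≤ _ at hS1
  change ∀ x, _ < lam ^ 2 * X * n ^ (-ga j (i + 1)) at hS2
  rw [hX] at hS1 hS2
  have hga0 : 4 * al 0 ≤ ga j i := by
    have e1 : ga j 0 ≤ ga j i := monotone_nat_of_le_succ (p10 j) (Nat.zero_le i)
    have e2 := p4 j
    have e3 := p11 j
    linarith
  obtain ⟨del, P', Q', W', a', b', hdel, hwin⟩ := level (γ := ga j i) (γ' := ga j (i + 1))
    (ρ := al (j + 1) / (c + 1)) (α := al j) (α' := al (j + 1)) (β := H602.be c) h hP hlam hn1 hκ0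
    (by linarith) ((p13 j hj i hi.le).trans hρ) ((p12 j).trans hbe)
    (by linarith [p12 0]) h16 hC hCn hW1 hT1 hT2 hS1 hS2
  obtain ⟨hier, hc, hlog⟩ := p14 n m1' j hj i hi N
    (by
      rw [← hκ]
      calc n ^ (3 / 4 : ℝ) = n ^ κ * n ^ (3 / 4 - κ : ℝ) := by rw [add]; congr 1; ring
        _ ≤ n ^ κ * N := mul_le_mul_of_nonneg_left h.Nlow (pos _).le)
    (by
      rw [h.N_eq, hndef]
      exact_mod_cast card_le_card h.sub)
  rw [← hlam] at hier hc
  refine ⟨n ^ (2 * ga j i), n ^ (-ga j (i + 1)), n ^ (al (j + 1) / (c + 1)), n ^ (-al (j + 1)),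
    n ^ (2 * H602.be c), n ^ (2 * H602.be c * c), lam, N, del, P', Q', W', a', b', hier, ?_, ?_,
    hc, hlog, hwin⟩
  · rw [hq]
    calc n = n ^ 1 := (pow_one n).symm
      _ ≤ n ^ (3 * A + 2) := pow_le_pow_right₀ hn1.le (by omega)
  · rw [hq, h3A]
    have hdel0 := hwin.del0
    calc (1 : ℝ) ≤ 8 * (n ^ A) ^ 2 * θ := h.th1
      _ ≤ 8 * (n ^ A) ^ 2 * (12 * n ^ A * del) :=
          mul_le_mul_of_nonneg_left hdel (by positivity)
      _ = 96 * (del * (n ^ A * (n ^ A) ^ 2)) := by ring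
      _ ≤ n ^ 2 * (del * (n ^ A * (n ^ A) ^ 2)) :=
          mul_le_mul_of_nonneg_right hn2 (by positivity)
      _ = _ := by ring

end Vale.Agent.P065.UB.H855
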