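import Vale.Agent.P065.UB.Defs

/-!
# P065, upper bound, block P-NORM: affine invariance (helper855)

`af u l t s` maps abscissas `x ↦ (x - u) / l` and slopes `m ↦ (m - t) / s`.
-/

set_option autoImplicit false

namespace Vale.Agent.P065.UB.H855

open Finset

/-- affine map: abscissas `x ↦ (x - u) / l`, slopes `m ↦ (m - t) / s` -/
noncomputable def af (u l t s : ℝ) (p : Pt) : Pt := ((p.1 - u) / l, (p.2 - t * p.1) / (s * l))

variable {u l t s : ℝ}

theorem af_inj (hl : 0 < l) (hs : 0 < s) : Function.Injective (af u l t s) := by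
  intro p q h
  simp only [af, Prod.mk.injEq] at h
  obtain ⟨h1, h2⟩ := h
  have e1 : p.1 = q.1 := by
    have := (div_left_inj' hl.ne').1 h1
    linarith
  have e2 : p.2 = q.2 := by
    have := (div_left_inj' (mul_pos hs hl).ne').1 h2
    rw [e1] at this
    linarith
  exact Prod.ext e1 e2

theorem af_lt (hl : 0 < l) (p q : Pt) : (af u l t s p).1 < (af u l t s q).1 ↔ p.1 < q.1 := by
  simp only [af]
  rw [div_lt_div_iff_of_pos_right hl]
  constructor <;> intro h <;> linarith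

theorem af_eq (hl : 0 < l) (p q : Pt) : (af u l t s p).1 = (af u l t s q).1 ↔ p.1 = q.1 := by
  simp only [af]
  rw [div_left_inj' hl.ne']
  constructor <;> intro h <;> linarith

theorem sl_af (hl : 0 < l) (hs : 0 < s) {p q : Pt} (h : p.1 ≠ q.1) :
    sl (af u l t s p) (af u l t s q) = (sl p q - t) / s := by
  have h1 : q.1 - p.1 ≠ 0 := sub_ne_zero.2 (Ne.symm h)
  have h2 : (q.1 - u) - (p.1 - u) ≠ 0 := by
    have : (q.1 - u) - (p.1 - u) = q.1 - p.1 := by ring
    rw [this]; exact h1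
  simp only [af, sl]
  rw [← sub_div, ← sub_div]
  have e : q.2 - t * q.1 - (p.2 - t * p.1) = (q.2 - p.2) - t * (q.1 - p.1) := by ring
  have e' : (q.1 - u) - (p.1 - u) = q.1 - p.1 := by ring
  rw [e, e']
  field_simp

theorem ht_af (hl : 0 < l) (hs : 0 < s) (m : ℝ) (p : Pt) :
    ht m (af u l t s p) = (ht (t + s * m) p + s * m * u) / (s * l) := by
  simp only [af, ht]
  field_simp
  ring

theorem ht_af_lt (hl : 0 < l) (hs : 0 < s) (m : ℝ) (p q : Pt) :
    ht m (af u l t s p) < ht m (af u l t s q) ↔ ht (t + s * m) p < ht (t + s * m) q := by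
  rw [ht_af hl hs, ht_af hl hs, div_lt_div_iff_of_pos_right (mul_pos hs hl)]
  constructor <;> intro h <;> linarith

theorem ht_af_eq (hl : 0 < l) (hs : 0 < s) (m : ℝ) (p q : Pt) :
    ht m (af u l t s p) = ht m (af u l t s q) ↔ ht (t + s * m) p = ht (t + s * m) q := by
  rw [ht_af hl hs, ht_af hl hs, div_left_inj' (mul_pos hs hl).ne']
  constructor <;> intro h <;> linarith

theorem good_af (hl : 0 < l) (hs : 0 < s) {P : Finset Pt} (hP : Good P) :
    Good (P.image (af u l t s)) := by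
  constructor
  · intro p hp q hq h
    obtain ⟨p', hp', rfl⟩ := mem_image.1 hp
    obtain ⟨q', hq', rfl⟩ := mem_image.1 hq
    rw [af_eq hl] at h
    rw [hP.xinj p' hp' q' hq' h]
  · intro m a ha b hb c hc hab hac hbc h1 h2
    obtain ⟨a', ha', rfl⟩ := mem_image.1 ha
    obtain ⟨b', hb', rfl⟩ := mem_image.1 hb
    obtain ⟨c', hc', rfl⟩ := mem_image.1 hc
    rw [ht_af_eq hl hs] at h1 h2
    exact hP.gen _ a' ha' b' hb' c' hc' (fun h => hab (by rw [h])) (fun h => hac (by rw [h]))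
      (fun h => hbc (by rw [h])) h1 h2

theorem mem_image_af (hl : 0 < l) (hs : 0 < s) {P : Finset Pt} {p : Pt} :
    af u l t s p ∈ P.image (af u l t s) ↔ p ∈ P := by
  rw [mem_image]
  constructor
  · rintro ⟨q, hq, h⟩
    rwa [← af_inj hl hs h]
  · exact fun h => ⟨p, h, rfl⟩

theorem mem_Ed {P : Finset Pt} {k : ℕ} {e : Pt × Pt} : e ∈ Ed P k ↔ e.1 ∈ P ∧ e.2 ∈ P ∧
    e.1.1 < e.2.1 ∧ #{v ∈ P | ht (sl e.1 e.2) v < ht (sl e.1 e.2) e.1} = k := by
  classical
  simp only [Ed, mem_filter, mem_product]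
  tauto

theorem mem_Ed_af (hl : 0 < l) (hs : 0 < s) {P : Finset Pt} {k : ℕ} {p q : Pt} :
    (af u l t s p, af u l t s q) ∈ Ed (P.image (af u l t s)) k ↔ (p, q) ∈ Ed P k := by
  classical
  rw [mem_Ed, mem_Ed]
  simp only
  rw [mem_image_af hl hs, mem_image_af hl hs, af_lt hl]
  have key : p.1 < q.1 →
      #{v ∈ P.image (af u l t s) | ht (sl (af u l t s p) (af u l t s q)) v <
        ht (sl (af u l t s p) (af u l t s q)) (af u l t s p)} =
      #{v ∈ P | ht (sl p q) v < ht (sl p q) p} := by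
    intro h
    rw [sl_af hl hs h.ne]
    have e : t + s * ((sl p q - t) / s) = sl p q := by
      field_simp
      ring
    rw [filter_image, card_image_of_injective _ (af_inj hl hs)]
    congr 1
    ext v
    simp only [mem_filter]
    rw [ht_af_lt hl hs, e]
  constructor
  · rintro ⟨h1, h2, h3, h4⟩
    exact ⟨h1, h2, h3, (key h3) ▸ h4⟩
  · rintro ⟨h1, h2, h3, h4⟩
    exact ⟨h1, h2, h3, (key h3).trans h4⟩

theorem Ed_af (hl : 0 < l) (hs : 0 < s) (P : Finset Pt) (k : ℕ) :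
    Ed (P.image (af u l t s)) k = (Ed P k).image (Prod.map (af u l t s) (af u l t s)) := by
  classical
  ext e
  rw [mem_image]
  constructor
  · intro he
    obtain ⟨h1, h2, -⟩ := mem_Ed.1 he
    obtain ⟨p, hp, hp'⟩ := mem_image.1 h1
    obtain ⟨q, hq, hq'⟩ := mem_image.1 h2
    refine ⟨(p, q), ?_, ?_⟩
    · rw [← mem_Ed_af hl hs, hp', hq']
      exact he
    · simp only [Prod.map_apply, hp', hq']
  · rintro ⟨⟨p, q⟩, he, rfl⟩
    exact (mem_Ed_af hl hs).2 he

theorem EdIn_af (hl : 0 < l) (hs : 0 < s) (P : Finset Pt) (k : ℕ) (Q : Finset Pt) (I : Set ℝ) :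
    EdIn (P.image (af u l t s)) k (Q.image (af u l t s)) I =
      (EdIn P k Q {m | (m - t) / s ∈ I}).image (Prod.map (af u l t s) (af u l t s)) := by
  classical
  ext e
  rw [mem_image]
  simp only [EdIn, mem_filter]
  rw [Ed_af hl hs, mem_image]
  constructor
  · rintro ⟨⟨⟨p, q⟩, hpq, rfl⟩, h1, h2, h3⟩
    simp only [Prod.map_apply] at h1 h2 h3 ⊢
    have hlt := (mem_Ed.1 hpq).2.2.1
    rw [mem_image_af hl hs] at h1 h2
    rw [sl_af hl hs hlt.ne] at h3
    exact ⟨(p, q), ⟨hpq, h1, h2, h3⟩, rfl⟩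
  · rintro ⟨⟨p, q⟩, ⟨hpq, h1, h2, h3⟩, rfl⟩
    have hlt := (mem_Ed.1 hpq).2.2.1
    refine ⟨⟨(p, q), hpq, rfl⟩, ?_⟩
    simp only [Prod.map_apply]
    rw [mem_image_af hl hs, mem_image_af hl hs, sl_af hl hs hlt.ne]
    exact ⟨h1, h2, h3⟩

theorem EdBd_af (hl : 0 < l) (hs : 0 < s) (P : Finset Pt) (k : ℕ) (Q : Finset Pt) (I : Set ℝ) :
    EdBd (P.image (af u l t s)) k (Q.image (af u l t s)) I =
      (EdBd P k Q {m | (m - t) / s ∈ I}).image (Prod.map (af u l t s) (af u l t s)) := by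
  classical
  ext e
  rw [mem_image]
  simp only [EdBd, mem_filter]
  rw [Ed_af hl hs, mem_image]
  constructor
  · rintro ⟨⟨⟨p, q⟩, hpq, rfl⟩, h1, h3⟩
    simp only [Prod.map_apply] at h1 h3 ⊢
    have hlt := (mem_Ed.1 hpq).2.2.1
    rw [mem_image_af hl hs, mem_image_af hl hs] at h1
    rw [sl_af hl hs hlt.ne] at h3
    exact ⟨(p, q), ⟨hpq, h1, h3⟩, rfl⟩
  · rintro ⟨⟨p, q⟩, ⟨hpq, h1, h3⟩, rfl⟩
    have hlt := (mem_Ed.1 hpq).2.2.1
    refine ⟨⟨(p, q), hpq, rfl⟩, ?_⟩
    simp only [Prod.map_apply]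
    rw [mem_image_af hl hs, mem_image_af hl hs, sl_af hl hs hlt.ne]
    exact ⟨h1, h3⟩

theorem Tch_af (hl : 0 < l) (hs : 0 < s) (P : Finset Pt) (k : ℕ) (Q : Finset Pt) (I : Set ℝ) :
    Tch (P.image (af u l t s)) k (Q.image (af u l t s)) I =
      (Tch P k Q {m | (m - t) / s ∈ I}).image (af u l t s) := by
  classical
  ext v
  rw [mem_image]
  simp only [Tch, mem_filter]
  rw [EdIn_af hl hs]
  constructor
  · rintro ⟨hv, e, he, h⟩
    obtain ⟨v', hv', rfl⟩ := mem_image.1 hv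
    obtain ⟨e', he', rfl⟩ := mem_image.1 he
    refine ⟨v', ⟨hv', e', he', ?_⟩, rfl⟩
    simp only [Prod.map_fst, Prod.map_snd] at h
    rcases h with h | h
    · exact Or.inl (af_inj hl hs h)
    · exact Or.inr (af_inj hl hs h)
  · rintro ⟨v', ⟨hv', e, he, h⟩, rfl⟩
    refine ⟨mem_image_of_mem _ hv', Prod.map (af u l t s) (af u l t s) e,
      mem_image_of_mem _ he, ?_⟩
    simp only [Prod.map_fst, Prod.map_snd]
    rcases h with h | h
    · exact Or.inl (by rw [h])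
    · exact Or.inr (by rw [h])

theorem pm_inj (hl : 0 < l) (hs : 0 < s) :
    Function.Injective (Prod.map (af u l t s) (af u l t s)) :=
  (af_inj hl hs).prodMap (af_inj hl hs)

theorem card_EdIn_af (hl : 0 < l) (hs : 0 < s) (P : Finset Pt) (k : ℕ) (Q : Finset Pt)
    (I : Set ℝ) : #(EdIn (P.image (af u l t s)) k (Q.image (af u l t s)) I) =
      #(EdIn P k Q {m | (m - t) / s ∈ I}) := by
  rw [EdIn_af hl hs, card_image_of_injective _ (pm_inj hl hs)]

theorem card_EdBd_af (hl : 0 < l) (hs : 0 < s) (P : Finset Pt) (k : ℕ) (Q : Finset Pt)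
    (I : Set ℝ) : #(EdBd (P.image (af u l t s)) k (Q.image (af u l t s)) I) =
      #(EdBd P k Q {m | (m - t) / s ∈ I}) := by
  rw [EdBd_af hl hs, card_image_of_injective _ (pm_inj hl hs)]

theorem card_Tch_af (hl : 0 < l) (hs : 0 < s) (P : Finset Pt) (k : ℕ) (Q : Finset Pt)
    (I : Set ℝ) : #(Tch (P.image (af u l t s)) k (Q.image (af u l t s)) I) =
      #(Tch P k Q {m | (m - t) / s ∈ I}) := by
  rw [Tch_af hl hs, card_image_of_injective _ (af_inj hl hs)]

theorem set_af (hs : 0 < s) (a b : ℝ) :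
    {m : ℝ | (m - t) / s ∈ Set.Icc ((a - t) / s) ((b - t) / s)} = Set.Icc a b := by
  ext m
  simp only [Set.mem_setOf_eq, Set.mem_Icc]
  rw [div_le_div_iff_of_pos_right hs, div_le_div_iff_of_pos_right hs]
  constructor <;> rintro ⟨h1, h2⟩ <;> constructor <;> linarith

end Vale.Agent.P065.UB.H855
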