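import Vale.Agent.P065.UB.H855.Level
import Vale.Agent.P065.UB.H602.Par

/-!
# P065, upper bound, block P-NORM: assembly (helper855)
-/

set_option autoImplicit false

namespace Vale.Agent.P065.UB.H855

open Finset P

section level

variable {A : ℕ} {κ γ γ' ρ α α' β n lam N θ : ℝ} {P : Finset Pt} {k : ℕ} {Q : Finset Pt}
  {W : Finset ℕ} {a b : ℕ → ℝ}

/-- one level: everything is normalised -/
theorem level (h : Raw A κ n lam N θ P k Q W a b) (hP : Good P)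
    (hlam : lam = n ^ (1 / 8 : ℝ)) (hn1 : 1 < n) (hκ0 : 0 < κ) (hκγ : 400 * κ ≤ γ)
    (hγ : γ ≤ 1 / 32) (hα : α ≤ 1 / 32) (hκβ : κ ≤ β) (h16 : 16 ≤ n ^ κ) {C : ℝ}
    (hC : ∀ (P : Finset Pt) (k : ℕ) (Q : Finset Pt) (I : Set ℝ), Good P →
      Q ⊆ P → I.OrdConnected → ∀ y : ℝ, (#(Tch P k Q I) : ℝ) ≤ y → (#(EdBd P k Q I) : ℝ) ≤ y →
      (#(EdIn P k Q I) : ℝ) ≤ C * y ^ (4 / 3 : ℝ)) (hCn : C ≤ n ^ κ)
    {j i : ℕ} {t u : ℝ} {W1 : Finset ℕ}
    (hW1 : W1 = {w ∈ W | t ≤ a w ∧ a w ≤ t + 4 * n ^ A / (n ^ β) ^ j})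
    (hT1 : lam ^ 2 * n ^ (-α) ≤ #W1)
    (hT2 : ∀ x, (#{w ∈ W | x ≤ a w ∧ a w ≤ x + 4 * n ^ A / (n ^ β) ^ (j + 1)} : ℝ) <
      lam ^ 2 * n ^ (-α'))
    (hS1 : lam ^ 2 * (N / lam) ^ (4 / 3 : ℝ) * n ^ (-γ) ≤ ∑ w ∈ W1,
      (#{e ∈ EdIn P k Q (Set.Icc (a w) (b w)) | u ≤ e.1.1 ∧
        e.1.1 ≤ u + 2 * n ^ A / (n ^ ρ) ^ i} : ℝ))
    (hS2 : ∀ x, ∑ w ∈ W1, (#{e ∈ EdIn P k Q (Set.Icc (a w) (b w)) | x ≤ e.1.1 ∧
        e.1.1 ≤ x + 2 * n ^ A / (n ^ ρ) ^ (i + 1)} : ℝ) <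
      lam ^ 2 * (N / lam) ^ (4 / 3 : ℝ) * n ^ (-γ')) :
    ∃ (del : ℝ) (P' Q' : Finset Pt) (W' : Finset ℕ) (a' b' : ℕ → ℝ),
      θ ≤ 12 * n ^ A * del ∧
      NWin (n ^ (2 * γ)) (n ^ (-γ')) (n ^ ρ) (n ^ (-α')) (n ^ (2 * β)) lam N del
        P' k Q' W' a' b' := by
  classical
  have hn0 : 0 < n := by linarith
  have mono : ∀ {u v : ℝ}, u ≤ v → n ^ u ≤ n ^ v := fun h =>
    Real.rpow_le_rpow_of_exponent_le hn1.le h
  have add : ∀ u v : ℝ, n ^ u * n ^ v = n ^ (u + v) := fun u v => (Real.rpow_add hn0 u v).symm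
  have pos : ∀ u : ℝ, 0 < n ^ u := fun u => Real.rpow_pos_of_pos hn0 u
  have hl0 : 0 < lam := by rw [hlam]; exact pos _
  have hN0 : 0 < N := lt_of_lt_of_le (pos _) h.Nlow
  have hW1s : W1 ⊆ W := by rw [hW1]; exact filter_subset _ _
  obtain ⟨l, hl⟩ : ∃ l : ℝ, l = 2 * n ^ A / (n ^ ρ) ^ i := ⟨_, rfl⟩
  obtain ⟨s, hs⟩ : ∃ s : ℝ, s = 4 * n ^ A / (n ^ β) ^ j := ⟨_, rfl⟩
  have hl0' : 0 < l := by rw [hl]; have := pos ρ; positivity
  have hs0 : 0 < s := by rw [hs]; have := pos β; positivity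
  rw [← hl] at hS1
  rw [← hs] at hW1
  have hcard := slab_windows h hP hlam hn1 hκ0 hκγ hγ h16 hC hCn hW1s hS1
  obtain ⟨W3, hW3⟩ : ∃ W3 : Finset ℕ, W3 = {w ∈ W1 | (N / lam) ^ (4 / 3 : ℝ) *
    n ^ (-γ - 2 * κ) ≤ (#(EdIn P k (Slab Q u l) (Set.Icc (a w) (b w))) : ℝ)} := ⟨_, rfl⟩
  rw [← hW3] at hcard
  have mem3 : ∀ w ∈ W3, w ∈ W ∧ (t ≤ a w ∧ a w ≤ t + s) ∧ (N / lam) ^ (4 / 3 : ℝ) *
    n ^ (-γ - 2 * κ) ≤ (#(EdIn P k (Slab Q u l) (Set.Icc (a w) (b w))) : ℝ) := by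
    intro w hw
    rw [hW3, mem_filter, hW1, mem_filter] at hw
    exact ⟨hw.1.1, hw.1.2, hw.2⟩
  -- the length of a window against the length of the interval
  have hθs : θ ≤ s := by
    have h1 : (1 : ℝ) < #W1 := by
      refine lt_of_lt_of_le ?_ hT1
      have : lam ^ 2 = n ^ (1 / 4 : ℝ) := by
        rw [hlam, ← Real.rpow_natCast, ← Real.rpow_mul hn0.le]; norm_num
      rw [this, add]
      exact Real.one_lt_rpow hn1 (by linarith)
    have h2 : 1 < #W1 := by exact_mod_cast h1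
    obtain ⟨w, hw, w', hw', hne⟩ := one_lt_card.1 h2
    rw [hW1, mem_filter] at hw hw'
    have h3 := h.sep hw.1 hw'.1 hne
    have h4 : |a w - a w'| ≤ s := by
      rw [abs_le]
      constructor <;> linarith [hw.2.1, hw.2.2, hw'.2.1, hw'.2.2]
    linarith
  have hκ2 : n ^ κ ≤ n ^ (2 * γ) := mono (by linarith)
  have h9 : 9 * n ^ κ ≤ n ^ (2 * γ) := by
    calc 9 * n ^ κ ≤ n ^ κ * n ^ κ := mul_le_mul_of_nonneg_right (by linarith) (pos _).le
      _ = n ^ (κ + κ) := add _ _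
      _ ≤ _ := mono (by linarith)
  have hraw : H602.Raw (n ^ (2 * γ)) lam N θ u l t (s + 2 * θ) P k (Slab Q u l) W3 a b := by
    refine ⟨hP, (Slab_sub u l).trans h.sub, hl0', by linarith [h.th0], ?_, h.th0,
      fun w hw => h.len w (mem3 w hw).1, ?_, ?_, ?_, ?_, hcard, ?_, ?_, ?_, ?_⟩
    · intro p hp
      exact (mem_Slab.1 hp).2
    · intro w hw
      have h1 := (mem3 w hw).2.1
      have h2 := h.len w (mem3 w hw).1
      exact ⟨h1.1, by linarith⟩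
    · intro w hw w' hw' hne
      exact h.disj w (mem3 w hw).1 w' (mem3 w' hw').1 hne
    · rw [h.N_eq]
      exact_mod_cast card_le_card (Slab_sub u l)
    · have h1 : (#W3 : ℝ) ≤ #W := by
        exact_mod_cast card_le_card fun w hw => (mem3 w hw).1
      exact h1.trans (h.cardW.trans (mul_le_mul_of_nonneg_right hκ2 (by positivity)))
    · intro w hw
      have h1 : (#(Tch P k (Slab Q u l) (Set.Icc (a w) (b w))) : ℝ) ≤
          #(Tch P k Q (Set.Icc (a w) (b w))) := by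
        exact_mod_cast card_le_card (Tch_mono_Q (Slab_sub u l))
      calc lam * (#(Tch P k (Slab Q u l) (Set.Icc (a w) (b w))) : ℝ) ≤
          lam * #(Tch P k Q (Set.Icc (a w) (b w))) := mul_le_mul_of_nonneg_left h1 hl0.le
        _ ≤ n ^ κ * N := h.tch w (mem3 w hw).1
        _ ≤ _ := mul_le_mul_of_nonneg_right hκ2 hN0.le
    · intro w hw
      have h1 := slab_bd (k := k) hP h.sub (I := Set.Icc (a w) (b w)) Set.ordConnected_Icc u l
      have h2 : (#(EdBd P k (Slab Q u l) (Set.Icc (a w) (b w))) : ℝ) ≤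
          4 * #(Tch P k Q (Set.Icc (a w) (b w))) + 5 * #(EdBd P k Q (Set.Icc (a w) (b w))) := by
        exact_mod_cast h1
      calc lam * (#(EdBd P k (Slab Q u l) (Set.Icc (a w) (b w))) : ℝ) ≤
          lam * (4 * #(Tch P k Q (Set.Icc (a w) (b w))) +
            5 * #(EdBd P k Q (Set.Icc (a w) (b w)))) := mul_le_mul_of_nonneg_left h2 hl0.le
        _ = 4 * (lam * #(Tch P k Q (Set.Icc (a w) (b w)))) +
            5 * (lam * #(EdBd P k Q (Set.Icc (a w) (b w)))) := by ring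
        _ ≤ 4 * (n ^ κ * N) + 5 * (n ^ κ * N) := by
            linarith [h.tch w (mem3 w hw).1, h.bd w (mem3 w hw).1]
        _ = 9 * n ^ κ * N := by ring
        _ ≤ _ := mul_le_mul_of_nonneg_right h9 hN0.le
    · intro w hw
      have h1 := (mem3 w hw).2.2
      have h2 : (N / lam) ^ (4 / 3 : ℝ) = n ^ (γ + 2 * κ) *
          ((N / lam) ^ (4 / 3 : ℝ) * n ^ (-γ - 2 * κ)) := by
        have : n ^ (γ + 2 * κ) * n ^ (-γ - 2 * κ) = 1 := by
          rw [add]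
          have : γ + 2 * κ + (-γ - 2 * κ) = 0 := by ring
          rw [this, Real.rpow_zero]
        calc (N / lam) ^ (4 / 3 : ℝ) = (N / lam) ^ (4 / 3 : ℝ) *
              (n ^ (γ + 2 * κ) * n ^ (-γ - 2 * κ)) := by rw [this, mul_one]
          _ = _ := by ring
      rw [h2]
      refine mul_le_mul (mono (by linarith)) h1 ?_ (pos _).le
      have := pos (-γ - 2 * κ)
      positivity
    · have h1 := slab_bd (k := k) hP h.sub (I := Set.univ) Set.ordConnected_univ u l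
      have h2 : (#(EdBd P k (Slab Q u l) Set.univ) : ℝ) ≤
          4 * #(Tch P k Q Set.univ) + 5 * #(EdBd P k Q Set.univ) := by
        exact_mod_cast h1
      have h3 : (#(Tch P k Q Set.univ) : ℝ) ≤ N := by
        rw [h.N_eq]
        have : Tch P k Q Set.univ ⊆ Q := by
          intro v hv
          simp only [Tch, mem_filter] at hv
          exact hv.1
        exact_mod_cast card_le_card this
      have h4 : N ≤ n ^ κ * (lam * N) := by
        have e1 : 1 ≤ lam := by rw [hlam]; exact Real.one_le_rpow hn1.le (by norm_num)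
        have e2 : 1 ≤ n ^ κ * lam := one_le_mul_of_one_le_of_one_le (by linarith) e1
        calc N = 1 * N := (one_mul N).symm
          _ ≤ (n ^ κ * lam) * N := mul_le_mul_of_nonneg_right e2 hN0.le
          _ = _ := by ring
      calc (#(EdBd P k (Slab Q u l) Set.univ) : ℝ) ≤ 9 * (n ^ κ * (lam * N)) := by
            linarith [h.glob]
        _ = 9 * n ^ κ * (lam * N) := by ring
        _ ≤ _ := mul_le_mul_of_nonneg_right h9 (by positivity)
  refine ⟨θ / (s + 2 * θ), _, _, W3, _, _, ?_, H602.nwin_of_raw hraw ?_ ?_⟩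
  · have h1 : s + 2 * θ ≤ 12 * n ^ A := by
      have h2 : s ≤ 4 * n ^ A := by
        rw [hs]
        refine div_le_self (by positivity) ?_
        exact one_le_pow₀ (Real.one_le_rpow hn1.le (by linarith))
      linarith
    have h3 : 0 < s + 2 * θ := by linarith [h.th0]
    rw [← mul_div_assoc, le_div_iff₀ h3]
    have := mul_le_mul_of_nonneg_left h1 h.th0.le
    linarith
  · intro x
    have h1 : (s + 2 * θ) / n ^ (2 * β) ≤ 4 * n ^ A / (n ^ β) ^ (j + 1) := by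
      have e1 : n ^ (2 * β) = n ^ β * n ^ β := by rw [add]; congr 1; ring
      have e2 : 3 ≤ n ^ β := by
        have := mono hκβ
        linarith
      rw [e1, pow_succ, ← div_div _ ((n ^ β) ^ j), ← hs]
      have h2 : s + 2 * θ ≤ s * n ^ β := by nlinarith
      rw [div_le_div_iff₀ (by have := pos β; positivity) (pos _)]
      calc (s + 2 * θ) * n ^ β ≤ s * n ^ β * n ^ β := mul_le_mul_of_nonneg_right h2 (pos _).le
        _ = _ := by ring
    have h2 : (#{w ∈ W3 | x ≤ a w ∧ a w ≤ x + (s + 2 * θ) / n ^ (2 * β)} : ℝ) ≤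
        #{w ∈ W | x ≤ a w ∧ a w ≤ x + 4 * n ^ A / (n ^ β) ^ (j + 1)} := by
      have : #{w ∈ W3 | x ≤ a w ∧ a w ≤ x + (s + 2 * θ) / n ^ (2 * β)} ≤
          #{w ∈ W | x ≤ a w ∧ a w ≤ x + 4 * n ^ A / (n ^ β) ^ (j + 1)} := by
        refine card_le_card fun w hw => ?_
        rw [mem_filter] at hw ⊢
        exact ⟨(mem3 w hw.1).1, hw.2.1, by linarith [hw.2.2]⟩
      exact_mod_cast this
    have h3 := h2.trans (hT2 x).le
    linarith
  · intro x
    have e1 : l / n ^ ρ = 2 * n ^ A / (n ^ ρ) ^ (i + 1) := by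
      rw [hl, pow_succ, div_div]
    rw [e1]
    have h2 : ∑ w ∈ W3, (#{e ∈ EW P k (Slab Q u l) a b w | x ≤ e.1.1 ∧
          e.1.1 ≤ x + 2 * n ^ A / (n ^ ρ) ^ (i + 1)} : ℝ) ≤
        ∑ w ∈ W1, (#{e ∈ EdIn P k Q (Set.Icc (a w) (b w)) | x ≤ e.1.1 ∧
          e.1.1 ≤ x + 2 * n ^ A / (n ^ ρ) ^ (i + 1)} : ℝ) := by
      have hsub : W3 ⊆ W1 := by rw [hW3]; exact filter_subset _ _
      refine le_trans (sum_le_sum fun w _ => ?_)
        (sum_le_sum_of_subset_of_nonneg hsub fun _ _ _ => by positivity)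
      have : #{e ∈ EW P k (Slab Q u l) a b w | x ≤ e.1.1 ∧
          e.1.1 ≤ x + 2 * n ^ A / (n ^ ρ) ^ (i + 1)} ≤
          #{e ∈ EdIn P k Q (Set.Icc (a w) (b w)) | x ≤ e.1.1 ∧
          e.1.1 ≤ x + 2 * n ^ A / (n ^ ρ) ^ (i + 1)} := by
        refine card_le_card fun e he => ?_
        rw [mem_filter] at he ⊢
        exact ⟨EdIn_mono_Q (Slab_sub u l) he.1, he.2⟩
      exact_mod_cast this
    have h3 := h2.trans (hS2 x).le
    linarith

end level

end Vale.Agent.P065.UB.H855
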