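import Vale.Agent.P065.UB.H855.Steps
import Vale.Agent.P065.UB.H602.Raw

/-!
# P065, upper bound, block P-NORM: one level (helper855)
-/

set_option autoImplicit false

namespace Vale.Agent.P065.UB.H855

open Finset P

/-- real arithmetic: the edges of a window against the points of a window -/
theorem X_low {κ n lam N : ℝ} (hn : 1 < n) (hlam : lam = n ^ (1 / 8 : ℝ)) (hκ : κ ≤ 1 / 100)
    (hN : n ^ (3 / 4 - κ : ℝ) ≤ N) :
    N / lam * n ^ (1 / 5 : ℝ) ≤ (N / lam) ^ (4 / 3 : ℝ) := by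
  have hn0 : 0 < n := by linarith
  have h1 : n ^ (3 / 5 : ℝ) ≤ N / lam := by
    rw [hlam, le_div_iff₀ (Real.rpow_pos_of_pos hn0 _), ← Real.rpow_add hn0]
    refine le_trans (Real.rpow_le_rpow_of_exponent_le hn.le ?_) hN
    linarith
  have h0 : 0 < N / lam := lt_of_lt_of_le (Real.rpow_pos_of_pos hn0 _) h1
  have h2 : n ^ (1 / 5 : ℝ) ≤ (N / lam) ^ (1 / 3 : ℝ) := by
    calc n ^ (1 / 5 : ℝ) = (n ^ (3 / 5 : ℝ)) ^ (1 / 3 : ℝ) := by
          rw [← Real.rpow_mul hn0.le]; norm_num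
      _ ≤ _ := Real.rpow_le_rpow (by positivity) h1 (by norm_num)
  calc N / lam * n ^ (1 / 5 : ℝ) ≤ N / lam * (N / lam) ^ (1 / 3 : ℝ) :=
        mul_le_mul_of_nonneg_left h2 h0.le
    _ = (N / lam) ^ (1 : ℝ) * (N / lam) ^ (1 / 3 : ℝ) := by rw [Real.rpow_one]
    _ = (N / lam) ^ (4 / 3 : ℝ) := by rw [← Real.rpow_add h0]; norm_num

section level

variable {A : ℕ} {κ γ γ' ρ α α' β n lam N θ : ℝ} {P : Finset Pt} {k : ℕ} {Q : Finset Pt}
  {W : Finset ℕ} {a b : ℕ → ℝ}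

/-- the windows of `W1` which keep many edges inside the slab -/
theorem slab_windows (h : Raw A κ n lam N θ P k Q W a b) (hP : Good P)
    (hlam : lam = n ^ (1 / 8 : ℝ)) (hn1 : 1 < n) (hκ0 : 0 < κ) (hκγ : 400 * κ ≤ γ)
    (hγ : γ ≤ 1 / 32) (h16 : 16 ≤ n ^ κ) {C : ℝ}
    (hC : ∀ (P : Finset Pt) (k : ℕ) (Q : Finset Pt) (I : Set ℝ), Good P →
      Q ⊆ P → I.OrdConnected → ∀ y : ℝ, (#(Tch P k Q I) : ℝ) ≤ y → (#(EdBd P k Q I) : ℝ) ≤ y →
      (#(EdIn P k Q I) : ℝ) ≤ C * y ^ (4 / 3 : ℝ)) (hCn : C ≤ n ^ κ)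
    {u l : ℝ} {W1 : Finset ℕ} (hW1 : W1 ⊆ W)
    (hS1 : lam ^ 2 * (N / lam) ^ (4 / 3 : ℝ) * n ^ (-γ) ≤ ∑ w ∈ W1,
      (#{e ∈ EdIn P k Q (Set.Icc (a w) (b w)) | u ≤ e.1.1 ∧ e.1.1 ≤ u + l} : ℝ)) :
    lam ^ 2 ≤ n ^ (2 * γ) * #{w ∈ W1 | (N / lam) ^ (4 / 3 : ℝ) * n ^ (-γ - 2 * κ) ≤
      (#(EdIn P k (Slab Q u l) (Set.Icc (a w) (b w))) : ℝ)} := by
  classical
  have hn0 : 0 < n := by linarith
  have mono : ∀ {u v : ℝ}, u ≤ v → n ^ u ≤ n ^ v := fun h =>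
    Real.rpow_le_rpow_of_exponent_le hn1.le h
  have add : ∀ u v : ℝ, n ^ u * n ^ v = n ^ (u + v) := fun u v => (Real.rpow_add hn0 u v).symm
  have pos : ∀ u : ℝ, 0 < n ^ u := fun u => Real.rpow_pos_of_pos hn0 u
  have hl0 : 0 < lam := by rw [hlam]; exact pos _
  have hκ1 : κ ≤ 1 / 100 := by linarith
  have hN0 : 0 < N := lt_of_lt_of_le (pos _) h.Nlow
  have hX := X_low hn1 hlam hκ1 h.Nlow
  obtain ⟨X, hXd⟩ : ∃ X : ℝ, X = (N / lam) ^ (4 / 3 : ℝ) := ⟨_, rfl⟩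
  rw [← hXd] at hX hS1 ⊢
  have hX0 : 0 < X := by rw [hXd]; exact Real.rpow_pos_of_pos (div_pos hN0 hl0) _
  have hNl : 0 < N / lam := div_pos hN0 hl0
  have hW1c : (#W1 : ℝ) ≤ n ^ κ * lam ^ 2 := by
    have : (#W1 : ℝ) ≤ #W := by exact_mod_cast card_le_card hW1
    exact this.trans h.cardW
  have htch : ∀ w ∈ W1, (#(Tch P k Q (Set.Icc (a w) (b w))) : ℝ) ≤ n ^ κ * (N / lam) := by
    intro w hw
    have := h.tch w (hW1 hw)
    rw [← mul_div_assoc, le_div_iff₀ hl0]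
    linarith
  have hbd : ∀ w ∈ W1, (#(EdBd P k Q (Set.Icc (a w) (b w))) : ℝ) ≤ n ^ κ * (N / lam) := by
    intro w hw
    have := h.bd w (hW1 hw)
    rw [← mul_div_assoc, le_div_iff₀ hl0]
    linarith
  obtain ⟨S, hSd⟩ : ∃ S : ℝ, S = lam ^ 2 * X * n ^ (-γ) := ⟨_, rfl⟩
  rw [← hSd] at hS1
  -- the loss
  have hloss : #W1 * (4 * (n ^ κ * (N / lam))) ≤ S / 4 := by
    have e1 : 16 * n ^ (2 * κ) ≤ n ^ (1 / 5 : ℝ) * n ^ (-γ) := by
      rw [add]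
      calc 16 * n ^ (2 * κ) ≤ n ^ κ * n ^ (2 * κ) := mul_le_mul_of_nonneg_right h16 (pos _).le
        _ = n ^ (κ + 2 * κ) := add _ _
        _ ≤ _ := mono (by linarith)
    calc #W1 * (4 * (n ^ κ * (N / lam))) ≤ (n ^ κ * lam ^ 2) * (4 * (n ^ κ * (N / lam))) :=
          mul_le_mul_of_nonneg_right hW1c (by have := pos κ; positivity)
      _ = lam ^ 2 * (N / lam) * (4 * (n ^ κ * n ^ κ)) := by ring
      _ = lam ^ 2 * (N / lam) * (4 * n ^ (2 * κ)) := by rw [add, two_mul]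
      _ ≤ lam ^ 2 * (N / lam) * (n ^ (1 / 5 : ℝ) * n ^ (-γ) / 4) :=
          mul_le_mul_of_nonneg_left (by linarith) (by positivity)
      _ = lam ^ 2 * (N / lam * n ^ (1 / 5 : ℝ)) * n ^ (-γ) / 4 := by ring
      _ ≤ lam ^ 2 * X * n ^ (-γ) / 4 := by
          have := pos (-γ)
          gcongr
      _ = S / 4 := by rw [hSd]
  have hsum : S / 2 ≤ ∑ w ∈ W1, (#(EdIn P k (Slab Q u l) (Set.Icc (a w) (b w))) : ℝ) := by
    have e1 : ∑ w ∈ W1,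
        (#{e ∈ EdIn P k Q (Set.Icc (a w) (b w)) | u ≤ e.1.1 ∧ e.1.1 ≤ u + l} : ℝ) ≤
        ∑ w ∈ W1, ((#(EdIn P k (Slab Q u l) (Set.Icc (a w) (b w))) : ℝ) +
          4 * (n ^ κ * (N / lam))) := by
      refine sum_le_sum fun w hw => ?_
      have e2 := slab_ed (k := k) hP h.sub (I := Set.Icc (a w) (b w)) Set.ordConnected_Icc u l
      have e3 : (#{e ∈ EdIn P k Q (Set.Icc (a w) (b w)) | u ≤ e.1.1 ∧ e.1.1 ≤ u + l} : ℝ) ≤
        #(EdIn P k (Slab Q u l) (Set.Icc (a w) (b w))) +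
          (2 * #(Tch P k Q (Set.Icc (a w) (b w))) + 2 * #(EdBd P k Q (Set.Icc (a w) (b w)))) := by
        exact_mod_cast e2
      linarith [htch w hw, hbd w hw]
    rw [sum_add_distrib, sum_const, nsmul_eq_mul] at e1
    have hS0 : 0 ≤ S := by
      rw [hSd]
      have := pos (-γ)
      positivity
    linarith
  -- the small terms
  have hv : #W1 * (X * n ^ (-γ - 2 * κ)) ≤ S / 2 / 2 := by
    have e1 : n ^ κ * n ^ (-γ - 2 * κ) ≤ n ^ (-γ) / 16 := by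
      rw [le_div_iff₀ (by norm_num), add]
      calc n ^ (κ + (-γ - 2 * κ)) * 16 ≤ n ^ (κ + (-γ - 2 * κ)) * n ^ κ :=
            mul_le_mul_of_nonneg_left h16 (pos _).le
        _ = n ^ (-γ) := by rw [add]; congr 1; ring
    calc #W1 * (X * n ^ (-γ - 2 * κ)) ≤ (n ^ κ * lam ^ 2) * (X * n ^ (-γ - 2 * κ)) :=
          mul_le_mul_of_nonneg_right hW1c (by have := pos (-γ - 2 * κ); positivity)
      _ = lam ^ 2 * X * (n ^ κ * n ^ (-γ - 2 * κ)) := by ring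
      _ ≤ lam ^ 2 * X * (n ^ (-γ) / 16) := mul_le_mul_of_nonneg_left e1 (by positivity)
      _ ≤ S / 2 / 2 := by
          rw [hSd]
          have : 0 ≤ lam ^ 2 * X * n ^ (-γ) := by
            have := pos (-γ)
            positivity
          linarith
  have hup : ∀ w ∈ W1, (#(EdIn P k (Slab Q u l) (Set.Icc (a w) (b w))) : ℝ) ≤
      n ^ (3 * κ) * X := by
    intro w hw
    have e1 : (#(EdIn P k (Slab Q u l) (Set.Icc (a w) (b w))) : ℝ) ≤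
        #(EdIn P k Q (Set.Icc (a w) (b w))) := by
      exact_mod_cast card_le_card (EdIn_mono_Q (Slab_sub u l))
    have e2 := hC P k Q (Set.Icc (a w) (b w)) hP h.sub Set.ordConnected_Icc _ (htch w hw)
      (hbd w hw)
    rw [Real.mul_rpow (pos _).le hNl.le, ← Real.rpow_mul hn0.le, ← hXd] at e2
    refine (e1.trans e2).trans ?_
    calc C * (n ^ (κ * (4 / 3)) * X) ≤ n ^ κ * (n ^ (κ * (4 / 3)) * X) :=
          mul_le_mul_of_nonneg_right hCn (by have := pos (κ * (4 / 3)); positivity)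
      _ = n ^ (κ + κ * (4 / 3)) * X := by rw [← mul_assoc, add]
      _ ≤ n ^ (3 * κ) * X := mul_le_mul_of_nonneg_right (mono (by linarith)) hX0.le
  have key := large_terms W1 (fun w => (#(EdIn P k (Slab Q u l) (Set.Icc (a w) (b w))) : ℝ))
    hup hsum hv (by have := pos (-γ - 2 * κ); positivity)
  obtain ⟨m, hm⟩ : ∃ m : ℝ, m = (#{w ∈ W1 | X * n ^ (-γ - 2 * κ) ≤
      (#(EdIn P k (Slab Q u l) (Set.Icc (a w) (b w))) : ℝ)} : ℝ) := ⟨_, rfl⟩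
  rw [← hm] at key ⊢
  have hm0 : 0 ≤ m := by rw [hm]; positivity
  have k1 : lam ^ 2 * n ^ (-γ) ≤ 4 * (m * n ^ (3 * κ)) := by
    have : (lam ^ 2 * n ^ (-γ)) * X ≤ (4 * (m * n ^ (3 * κ))) * X := by
      rw [hSd] at key
      linarith
    exact le_of_mul_le_mul_right this hX0
  have k2 : lam ^ 2 = lam ^ 2 * n ^ (-γ) * n ^ γ := by
    rw [mul_assoc, add]; simp
  calc lam ^ 2 = lam ^ 2 * n ^ (-γ) * n ^ γ := k2
    _ ≤ 4 * (m * n ^ (3 * κ)) * n ^ γ := mul_le_mul_of_nonneg_right k1 (pos _).le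
    _ ≤ n ^ κ * (m * n ^ (3 * κ)) * n ^ γ := by
        have := pos (3 * κ)
        have := pos γ
        gcongr
        linarith
    _ = (n ^ κ * n ^ (3 * κ) * n ^ γ) * m := by ring
    _ = n ^ (κ + 3 * κ + γ) * m := by rw [add, add]
    _ ≤ n ^ (2 * γ) * m := mul_le_mul_of_nonneg_right (mono (by linarith)) hm0

end level

end Vale.Agent.P065.UB.H855
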