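import Vale.Agent.P065.UB.Defs

/-!
# P065, upper bound, block P-NORM: the one-dimensional lemma (helper855)
-/

set_option autoImplicit false

namespace Vale.Agent.P065.UB.H855

open Finset

/-- **1-D normalisation**: if a long interval contains `f 0` elements and every very short
interval contains less than `f J`, then at some level `j < J` an interval of length `D / G ^ j`
contains `f j` elements and no interval of length `D / G ^ (j + 1)` contains `f (j + 1)`. -/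
theorem oned {ι : Type*} (S : Finset ι) (pos : ι → ℝ) (f : ℕ → ℝ) (J : ℕ) (D G : ℝ)
    (h0 : ∃ t, f 0 ≤ #{s ∈ S | t ≤ pos s ∧ pos s ≤ t + D})
    (hJ : ∀ t, (#{s ∈ S | t ≤ pos s ∧ pos s ≤ t + D / G ^ J} : ℝ) < f J) :
    ∃ j < J, ∃ t, f j ≤ #{s ∈ S | t ≤ pos s ∧ pos s ≤ t + D / G ^ j} ∧
      ∀ x, (#{s ∈ S | x ≤ pos s ∧ pos s ≤ x + D / G ^ (j + 1)} : ℝ) < f (j + 1) := by
  by_contra hc
  push Not at hc
  have key : ∀ j ≤ J, ∃ t, f j ≤ #{s ∈ S | t ≤ pos s ∧ pos s ≤ t + D / G ^ j} := by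
    intro j
    induction j with
    | zero => intro _; simpa using h0
    | succ j ih =>
      intro hj
      obtain ⟨t, ht⟩ := ih (by omega)
      exact hc j (by omega) t ht
  obtain ⟨t, ht⟩ := key J le_rfl
  exact absurd (hJ t) (not_lt.2 ht)

/-- weighted form: the elements are pairs `(w, e)` with `w ∈ W`, `e ∈ F w`. -/
theorem card_sigma_filter {α : Type*} (W : Finset ℕ) (F : ℕ → Finset α) (p : α → Prop)
    [DecidablePred p] : #{x ∈ W.sigma F | p x.2} = ∑ w ∈ W, #{e ∈ F w | p e} := by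
  classical
  have : ({x ∈ W.sigma F | p x.2} : Finset (Σ _ : ℕ, α)) = W.sigma (fun w => {e ∈ F w | p e}) := by
    ext x
    simp only [mem_filter, mem_sigma]
    tauto
  rw [this, card_sigma]

/-- weighted 1-D lemma -/
theorem oned_sum {α : Type*} (W : Finset ℕ) (F : ℕ → Finset α) (pos : α → ℝ) (f : ℕ → ℝ) (J : ℕ)
    (D G : ℝ)
    (h0 : ∃ t, f 0 ≤ ∑ w ∈ W, (#{e ∈ F w | t ≤ pos e ∧ pos e ≤ t + D} : ℝ))
    (hJ : ∀ t, ∑ w ∈ W, (#{e ∈ F w | t ≤ pos e ∧ pos e ≤ t + D / G ^ J} : ℝ) < f J) :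
    ∃ j < J, ∃ t, f j ≤ ∑ w ∈ W, (#{e ∈ F w | t ≤ pos e ∧ pos e ≤ t + D / G ^ j} : ℝ) ∧
      ∀ x, ∑ w ∈ W, (#{e ∈ F w | x ≤ pos e ∧ pos e ≤ x + D / G ^ (j + 1)} : ℝ) < f (j + 1) := by
  have cv : ∀ (p : α → Prop) [DecidablePred p],
      (#{x ∈ W.sigma F | p x.2} : ℝ) = ∑ w ∈ W, (#{e ∈ F w | p e} : ℝ) := by
    intro p _
    rw [card_sigma_filter]
    push_cast
    rfl
  obtain ⟨j, hj, t, h1, h2⟩ := oned (W.sigma F) (fun x => pos x.2) f J D G
    (by
      obtain ⟨t, ht⟩ := h0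
      refine ⟨t, ?_⟩
      rw [cv (fun e => t ≤ pos e ∧ pos e ≤ t + D)]
      exact ht)
    (by
      intro t
      rw [cv (fun e => t ≤ pos e ∧ pos e ≤ t + D / G ^ J)]
      exact hJ t)
  refine ⟨j, hj, t, ?_, fun x => ?_⟩
  · rw [cv (fun e => t ≤ pos e ∧ pos e ≤ t + D / G ^ j)] at h1
    exact h1
  · have := h2 x
    rw [cv (fun e => x ≤ pos e ∧ pos e ≤ x + D / G ^ (j + 1))] at this
    exact this

end Vale.Agent.P065.UB.H855
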