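import Vale.Agent.P065.UB.Pick
import Vale.Agent.P065.UB.H855.Lin1

/-!
# P065, upper bound, block P-NORM: windows of one popular length (helper855)
-/

set_option autoImplicit false

namespace Vale.Agent.P065.UB.H855

open Finset

/-- integer coordinates at most `n ^ A` -/
def IC (P : Finset Pt) (A : ℕ) : Prop :=
  ∀ p ∈ P, ∃ x y : ℤ, p = ((x : ℝ), (y : ℝ)) ∧ |x| ≤ (#P : ℤ) ^ A ∧ |y| ≤ (#P : ℤ) ^ A

/-- raw windows of lengths in `[θ, 2 θ]` -/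
structure Raw (A : ℕ) (κ n lam N θ : ℝ) (P : Finset Pt) (k : ℕ) (Q : Finset Pt)
    (W : Finset ℕ) (a b : ℕ → ℝ) : Prop where
  sub : Q ⊆ P
  N_eq : N = #Q
  th0 : 0 < θ
  th1 : 1 ≤ 8 * (n ^ A) ^ 2 * θ
  th2 : θ ≤ 4 * n ^ A
  len : ∀ w ∈ W, θ ≤ b w - a w ∧ b w - a w ≤ 2 * θ
  rng : ∀ w ∈ W, -(2 * n ^ A) ≤ a w ∧ a w ≤ 2 * n ^ A
  disj : ∀ w ∈ W, ∀ w' ∈ W, w ≠ w' → b w < a w' ∨ b w' < a w
  Nlow : n ^ (3 / 4 - κ : ℝ) ≤ N
  cardW : (#W : ℝ) ≤ n ^ κ * lam ^ 2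
  cardW' : lam ^ 2 ≤ n ^ (2 * κ) * #W
  tch : ∀ w ∈ W, lam * #(Tch P k Q (Set.Icc (a w) (b w))) ≤ n ^ κ * N
  bd : ∀ w ∈ W, lam * #(EdBd P k Q (Set.Icc (a w) (b w))) ≤ n ^ κ * N
  ed : ∀ w ∈ W, (N / lam) ^ (4 / 3 : ℝ) ≤ n ^ (3 * κ) * #(EdIn P k Q (Set.Icc (a w) (b w)))
  glob : (#(EdBd P k Q Set.univ) : ℝ) ≤ n ^ κ * (lam * N)

/-- large powers of large integers are large -/
theorem ev_le (C : ℝ) {x : ℝ} (hx : 0 < x) : ∃ n₀ : ℕ, 1 ≤ n₀ ∧ ∀ n : ℕ, n₀ ≤ n →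
    C ≤ (n : ℝ) ^ x := by
  set D : ℝ := max C 1 with hD
  have hD1 : 1 ≤ D := le_max_right _ _
  have hD0 : 0 < D := by linarith
  refine ⟨⌈D ^ (1 / x)⌉₊, Nat.ceil_pos.2 (by positivity), fun n hn => ?_⟩
  have h1 : D ^ (1 / x) ≤ n := (Nat.le_ceil _).trans (by exact_mod_cast hn)
  calc C ≤ D := le_max_left _ _
    _ = (D ^ (1 / x)) ^ x := by
        rw [← Real.rpow_mul hD0.le, one_div, inv_mul_cancel₀ hx.ne', Real.rpow_one]
    _ ≤ (n : ℝ) ^ x := Real.rpow_le_rpow (by positivity) h1 hx.le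

/-- logarithms are smaller than powers -/
theorem ev_log (C D : ℝ) (hD : 0 ≤ D) {x : ℝ} (hx : 0 < x) : ∃ n₀ : ℕ, 1 ≤ n₀ ∧ ∀ n : ℕ, n₀ ≤ n →
    C + D * Real.log n ≤ (n : ℝ) ^ x := by
  obtain ⟨n₀, h1, h2⟩ := ev_le (|C| + D * (1 / (x / 2))) (half_pos hx)
  refine ⟨n₀, h1, fun n hn => ?_⟩
  have hn1 : (1 : ℝ) ≤ n := by exact_mod_cast h1.trans hn
  have hn0 : (0 : ℝ) < n := by linarith
  have e1 : Real.log n ≤ (n : ℝ) ^ (x / 2) / (x / 2) := Real.log_le_rpow_div hn0.le (half_pos hx)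
  have e2 : (1 : ℝ) ≤ (n : ℝ) ^ (x / 2) := Real.one_le_rpow hn1 (half_pos hx).le
  have e3 := h2 n hn
  have e4 : (n : ℝ) ^ x = (n : ℝ) ^ (x / 2) * (n : ℝ) ^ (x / 2) := by
    rw [← Real.rpow_add hn0]; congr 1; ring
  set y := (n : ℝ) ^ (x / 2) with hy
  rw [e4]
  calc C + D * Real.log n ≤ |C| * y + D * (y / (x / 2)) := by
        refine add_le_add ?_ (mul_le_mul_of_nonneg_left e1 hD)
        exact (le_abs_self C).trans (le_mul_of_one_le_right (abs_nonneg C) e2)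
    _ = (|C| + D * (1 / (x / 2))) * y := by ring
    _ ≤ y * y := mul_le_mul_of_nonneg_right e3 (by linarith)

/-- slopes of points with integer coordinates -/
theorem sl_int {P : Finset Pt} {A : ℕ} (h : IC P A) {p q : Pt} (hp : p ∈ P) (hq : q ∈ P)
    (hpq : p.1 < q.1) : ∃ u v : ℤ, sl p q = (u : ℝ) / v ∧ 1 ≤ v ∧ v ≤ 2 * (#P : ℤ) ^ A ∧
      |u| ≤ 2 * (#P : ℤ) ^ A := by
  obtain ⟨x, y, rfl, hx, hy⟩ := h p hp
  obtain ⟨x', y', rfl, hx', hy'⟩ := h q hq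
  simp only at hpq
  have hlt : x < x' := by exact_mod_cast hpq
  refine ⟨y' - y, x' - x, ?_, by omega, ?_, ?_⟩
  · simp only [sl]
    push_cast
    rfl
  · have := abs_le.1 hx
    have := abs_le.1 hx'
    linarith
  · have := abs_le.1 hy
    have := abs_le.1 hy'
    exact abs_le.2 ⟨by linarith, by linarith⟩

theorem abs_sl_le {P : Finset Pt} {A : ℕ} (h : IC P A) {p q : Pt} (hp : p ∈ P) (hq : q ∈ P)
    (hpq : p.1 < q.1) : |sl p q| ≤ 2 * (#P : ℝ) ^ A := by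
  obtain ⟨u, v, e, h1, -, h3⟩ := sl_int h hp hq hpq
  rw [e, abs_div]
  have hv : (1 : ℝ) ≤ |(v : ℝ)| := by
    rw [abs_of_nonneg (by exact_mod_cast (by omega : (0 : ℤ) ≤ v))]
    exact_mod_cast h1
  have hu : |(u : ℝ)| ≤ 2 * (#P : ℝ) ^ A := by exact_mod_cast h3
  exact (div_le_self (abs_nonneg _) hv).trans hu

theorem sl_sep {P : Finset Pt} {A : ℕ} (h : IC P A) {p q p' q' : Pt} (hp : p ∈ P) (hq : q ∈ P)
    (hpq : p.1 < q.1) (hp' : p' ∈ P) (hq' : q' ∈ P) (hpq' : p'.1 < q'.1)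
    (hlt : sl p q < sl p' q') : 1 ≤ 4 * ((#P : ℝ) ^ A) ^ 2 * (sl p' q' - sl p q) := by
  obtain ⟨u, v, e, h1, h2, -⟩ := sl_int h hp hq hpq
  obtain ⟨u', v', e', h1', h2', -⟩ := sl_int h hp' hq' hpq'
  rw [e, e'] at hlt ⊢
  have hv : (0 : ℝ) < v := by exact_mod_cast (by omega : (0 : ℤ) < v)
  have hv' : (0 : ℝ) < v' := by exact_mod_cast (by omega : (0 : ℤ) < v')
  rw [div_lt_div_iff₀ hv hv'] at hlt
  have h3 : (1 : ℝ) ≤ u' * v - u * v' := by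
    have : u * v' < u' * v := by exact_mod_cast hlt
    have : 1 ≤ u' * v - u * v' := by omega
    exact_mod_cast this
  have e3 : (u' : ℝ) / v' - u / v = (u' * v - u * v') / (v * v') := by
    field_simp
  rw [e3]
  have h4 : (v : ℝ) * v' ≤ 4 * ((#P : ℝ) ^ A) ^ 2 := by
    have a1 : (v : ℝ) ≤ 2 * (#P : ℝ) ^ A := by exact_mod_cast h2
    have a2 : (v' : ℝ) ≤ 2 * (#P : ℝ) ^ A := by exact_mod_cast h2'
    calc (v : ℝ) * v' ≤ (2 * (#P : ℝ) ^ A) * (2 * (#P : ℝ) ^ A) :=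
          mul_le_mul a1 a2 hv'.le (by positivity)
      _ = _ := by ring
  rw [← mul_div_assoc, le_div_iff₀ (mul_pos hv hv'), one_mul]
  calc (v : ℝ) * v' ≤ 4 * ((#P : ℝ) ^ A) ^ 2 * 1 := by rw [mul_one]; exact h4
    _ ≤ _ := mul_le_mul_of_nonneg_left h3 (by positivity)

/-- the closed interval spanned by the slopes of at least two edges -/
theorem exists_Icc {P : Finset Pt} (hP : Good P) {A : ℕ} (hA : IC P A) {k : ℕ} {Q : Finset Pt}
    {I : Set ℝ} (hI : I.OrdConnected) (h2 : 2 ≤ #(EdIn P k Q I)) :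
    ∃ a b : ℝ, a ∈ I ∧ b ∈ I ∧ EdIn P k Q I = EdIn P k Q (Set.Icc a b) ∧
      1 ≤ 4 * ((#P : ℝ) ^ A) ^ 2 * (b - a) ∧ -(2 * (#P : ℝ) ^ A) ≤ a ∧ a ≤ 2 * (#P : ℝ) ^ A ∧
      b ≤ 2 * (#P : ℝ) ^ A := by
  classical
  set F := EdIn P k Q I with hF
  have hne : F.Nonempty := card_pos.1 (by omega)
  obtain ⟨e, heF, he⟩ := exists_min_image F (fun e => sl e.1 e.2) hne
  obtain ⟨e', heF', he'⟩ := exists_max_image F (fun e => sl e.1 e.2) hne
  have mem : ∀ f ∈ F, f ∈ Ed P k ∧ f.1 ∈ Q ∧ f.2 ∈ Q ∧ sl f.1 f.2 ∈ I := by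
    intro f hf
    simpa only [hF, EdIn, mem_filter] using hf
  have memP : ∀ f ∈ F, f.1 ∈ P ∧ f.2 ∈ P ∧ f.1.1 < f.2.1 := by
    intro f hf
    have := (mem f hf).1
    simp only [Ed, mem_filter, mem_product] at this
    exact ⟨this.1.1, this.1.2, this.2.1⟩
  have hlt : sl e.1 e.2 < sl e'.1 e'.2 := by
    refine lt_of_le_of_ne (he e' heF') fun hh => ?_
    have hall : ∀ f ∈ F, f = e := by
      intro f hf
      refine Win266.eq_of_sl hP (mem f hf).1 (mem e heF).1 ?_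
      have h1 : sl e.1 e.2 ≤ sl f.1 f.2 := he f hf
      have h3 : sl f.1 f.2 ≤ sl e'.1 e'.2 := he' f hf
      linarith
    have : #F ≤ 1 := card_le_one.2 fun x hx y hy => by rw [hall x hx, hall y hy]
    omega
  obtain ⟨m1, m2, m3⟩ := memP e heF
  obtain ⟨m1', m2', m3'⟩ := memP e' heF'
  refine ⟨sl e.1 e.2, sl e'.1 e'.2, (mem e heF).2.2.2, (mem e' heF').2.2.2, ?_,
    sl_sep hA m1 m2 m3 m1' m2' m3' hlt, ?_, ?_, ?_⟩
  · ext f
    constructor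
    · intro hf
      have hm := mem f hf
      simp only [EdIn, mem_filter]
      exact ⟨hm.1, hm.2.1, hm.2.2.1, he f hf, he' f hf⟩
    · intro hf
      simp only [EdIn, mem_filter] at hf
      rw [hF]
      simp only [EdIn, mem_filter]
      exact ⟨hf.1, hf.2.1, hf.2.2.1,
        hI.out (mem e heF).2.2.2 (mem e' heF').2.2.2 hf.2.2.2⟩
  · exact (abs_le.1 (abs_sl_le hA m1 m2 m3)).1
  · exact (abs_le.1 (abs_sl_le hA m1 m2 m3)).2
  · exact (abs_le.1 (abs_sl_le hA m1' m2' m3')).2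

theorem disj_Icc {I I' : Set ℝ} (hI : I.OrdConnected) (hI' : I'.OrdConnected)
    (h : Disjoint I I') {a b a' b' : ℝ} (ha : a ∈ I) (hb : b ∈ I) (ha' : a' ∈ I') (hb' : b' ∈ I')
    (hab : a ≤ b) (hab' : a' ≤ b') : b < a' ∨ b' < a := by
  by_contra hc
  push Not at hc
  obtain ⟨h1, h2⟩ := hc
  have m1 : max a a' ∈ I := hI.out ha hb ⟨le_max_left _ _, max_le hab h1⟩
  have m2 : max a a' ∈ I' := hI'.out ha' hb' ⟨le_max_right _ _, max_le h2 hab'⟩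
  exact Set.disjoint_left.1 h m1 m2

/-- pigeonhole on the lengths -/
theorem popular {W : Finset ℕ} (hW : W.Nonempty) (len : ℕ → ℝ) (Z : ℕ)
    (h : ∀ w ∈ W, 1 / (2 : ℝ) ^ Z ≤ len w ∧ len w ≤ 2 ^ Z) :
    ∃ z : ℤ, #W ≤ (2 * Z + 1) * #{w ∈ W | (2 : ℝ) ^ z ≤ len w ∧ len w ≤ 2 * 2 ^ z} ∧
      ({w ∈ W | (2 : ℝ) ^ z ≤ len w ∧ len w ≤ 2 * 2 ^ z} : Finset ℕ).Nonempty := by
  classical
  set R : Finset ℤ := Finset.Icc (-(Z : ℤ)) Z with hR
  have hRc : #R = 2 * Z + 1 := by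
    rw [hR, Int.card_Icc]
    omega
  have hpos : ∀ w ∈ W, 0 < len w := fun w hw => lt_of_lt_of_le (by positivity) (h w hw).1
  have hmaps : ∀ w ∈ W, Int.log 2 (len w) ∈ R := by
    intro w hw
    obtain ⟨h1, h2⟩ := h w hw
    rw [hR, Finset.mem_Icc]
    constructor
    · have : Int.log 2 ((2 : ℝ) ^ (-(Z : ℤ))) ≤ Int.log 2 (len w) := by
        refine Int.log_mono_right (by positivity) ?_
        rw [zpow_neg, zpow_natCast, ← one_div]
        exact h1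
      have e := Int.log_zpow (R := ℝ) (b := 2) (by norm_num) (-(Z : ℤ))
      push_cast at e
      rw [e] at this
      exact this
    · have : Int.log 2 (len w) ≤ Int.log 2 ((2 : ℝ) ^ (Z : ℤ)) := by
        refine Int.log_mono_right (hpos w hw) ?_
        rw [zpow_natCast]
        exact h2
      have e := Int.log_zpow (R := ℝ) (b := 2) (by norm_num) (Z : ℤ)
      push_cast at e
      rw [e] at this
      exact this
  have hsum := card_eq_sum_card_fiberwise hmaps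
  have hWpos : 0 < #W := card_pos.2 hW
  by_contra hc
  push Not at hc
  have hfib : ∀ z ∈ R, (2 * Z + 1) * #{w ∈ W | Int.log 2 (len w) = z} < #W := by
    intro z _
    by_contra hcc
    push Not at hcc
    have hss : ({w ∈ W | Int.log 2 (len w) = z} : Finset ℕ) ⊆
        {w ∈ W | (2 : ℝ) ^ z ≤ len w ∧ len w ≤ 2 * 2 ^ z} := by
      intro w hw
      simp only [mem_filter] at hw ⊢
      refine ⟨hw.1, ?_, ?_⟩
      · have := Int.zpow_log_le_self (R := ℝ) (b := 2) (by norm_num) (hpos w hw.1)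
        rw [hw.2] at this
        exact_mod_cast this
      · have := Int.lt_zpow_succ_log_self (R := ℝ) (b := 2) (by norm_num) (len w)
        rw [hw.2, zpow_add_one₀ (by norm_num)] at this
        push_cast at this
        linarith
    have hcard := card_le_card hss
    have h1 : #W ≤ (2 * Z + 1) * #{w ∈ W | (2 : ℝ) ^ z ≤ len w ∧ len w ≤ 2 * 2 ^ z} :=
      hcc.trans (Nat.mul_le_mul_left _ hcard)
    have h2 := hc z h1
    rw [h2] at h1
    simp at h1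
    exact hW.ne_empty h1
  have hRne : R.Nonempty := ⟨0, by rw [hR, Finset.mem_Icc]; omega⟩
  have := sum_lt_sum_of_nonempty hRne hfib
  rw [← mul_sum, ← hsum, sum_const, smul_eq_mul, hRc] at this
  exact lt_irrefl _ this

end Vale.Agent.P065.UB.H855
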