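import Vale.Agent.P065.UB.H855.Raw

/-!
# P065, upper bound, block P-NORM: the raw windows (helper855)
-/

set_option autoImplicit false

namespace Vale.Agent.P065.UB.H855

open Finset

theorem EdIn_mono_set {P : Finset Pt} {k : ℕ} {Q : Finset Pt} {I I' : Set ℝ} (h : I ⊆ I') :
    EdIn P k Q I ⊆ EdIn P k Q I' := by
  classical
  intro e he
  simp only [EdIn, mem_filter] at he ⊢
  exact ⟨he.1, he.2.1, he.2.2.1, h he.2.2.2⟩

theorem EdBd_mono_set {P : Finset Pt} {k : ℕ} {Q : Finset Pt} {I I' : Set ℝ} (h : I ⊆ I') :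
    EdBd P k Q I ⊆ EdBd P k Q I' := by
  classical
  intro e he
  simp only [EdBd, mem_filter] at he ⊢
  exact ⟨he.1, he.2.1, h he.2.2⟩

theorem Tch_congr {P : Finset Pt} {k : ℕ} {Q : Finset Pt} {I I' : Set ℝ}
    (h : EdIn P k Q I = EdIn P k Q I') : Tch P k Q I = Tch P k Q I' := by
  classical
  unfold Tch
  rw [h]

/-- numbers: the log of the number of dyadic lengths -/
theorem dyad (A m : ℕ) (hm : 1 ≤ m) : ∃ Z : ℕ, 4 * ((m : ℝ) ^ A) ^ 2 ≤ 2 ^ Z ∧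
    (2 * Z + 1 : ℝ) ≤ (5 + 4 * A) + 8 * A * Real.log m := by
  refine ⟨2 + 2 * A * (Nat.log 2 m + 1), ?_, ?_⟩
  · have h1 : m ≤ 2 ^ (Nat.log 2 m + 1) := (Nat.lt_pow_succ_log_self (by norm_num) m).le
    have h2 : (m : ℝ) ≤ 2 ^ (Nat.log 2 m + 1) := by exact_mod_cast h1
    have h3 : (m : ℝ) ^ (2 * A) ≤ (2 ^ (Nat.log 2 m + 1)) ^ (2 * A) :=
      pow_le_pow_left₀ (by positivity) h2 _
    calc 4 * ((m : ℝ) ^ A) ^ 2 = 4 * (m : ℝ) ^ (2 * A) := by ring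
      _ ≤ 4 * (2 ^ (Nat.log 2 m + 1)) ^ (2 * A) := by linarith
      _ = 2 ^ (2 + 2 * A * (Nat.log 2 m + 1)) := by
        rw [← pow_mul, pow_add 2 2, mul_comm (2 * A)]
        norm_num
  · have h1 : 2 ^ (Nat.log 2 m) ≤ m := Nat.pow_log_le_self 2 (by omega)
    have h2 : (2 : ℝ) ^ (Nat.log 2 m) ≤ m := by exact_mod_cast h1
    have h3 : (Nat.log 2 m : ℝ) * Real.log 2 ≤ Real.log m := by
      rw [← Real.log_pow]
      exact Real.log_le_log (by positivity) h2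
    have h4 : (1 / 2 : ℝ) ≤ Real.log 2 := by
      have := Real.log_two_gt_d9
      linarith
    have h5 : (Nat.log 2 m : ℝ) ≤ 2 * Real.log m := by
      have : (Nat.log 2 m : ℝ) * (1 / 2) ≤ Real.log m :=
        (mul_le_mul_of_nonneg_left h4 (Nat.cast_nonneg _)).trans h3
      linarith
    push_cast
    have h6 : (A : ℝ) * (Nat.log 2 m : ℝ) ≤ A * (2 * Real.log m) :=
      mul_le_mul_of_nonneg_left h5 (Nat.cast_nonneg _)
    nlinarith [h6]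

/-- windows before the choice of a popular length -/
structure Wins (κ n lam : ℝ) (P : Finset Pt) (k : ℕ) (Q : Finset Pt)
    (W : Finset ℕ) (I : ℕ → Set ℝ) : Prop where
  sub : Q ⊆ P
  K2 : 2 ≤ n ^ κ
  conn : ∀ w ∈ W, (I w).OrdConnected
  disj : ∀ w ∈ W, ∀ w' ∈ W, w ≠ w' → Disjoint (I w) (I w')
  Nlow : n ^ (3 / 4 - κ : ℝ) ≤ #Q
  cardW : (#W : ℝ) ≤ n ^ κ * lam ^ 2
  cardW' : lam ^ 2 ≤ n ^ κ * #W
  tch : ∀ w ∈ W, lam * #(Tch P k Q (I w)) ≤ n ^ κ * #Q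
  bd : ∀ w ∈ W, #(EdBd P k Q (I w)) ≤ #(Tch P k Q (I w))
  ed : ∀ w ∈ W, ((#Q : ℝ) / lam) ^ (4 / 3 : ℝ) ≤ n ^ (3 * κ) * #(EdIn P k Q (I w))
  two : ∀ w ∈ W, 2 ≤ #(EdIn P k Q (I w))
  glob : (#(EdBd P k Q Set.univ) : ℝ) ≤ n ^ κ * (lam * #Q)

theorem wins {κ : ℝ} (hκ : 0 < κ) (hκ1 : κ < 1 / 100) : ∃ ε : ℝ, 0 < ε ∧ ∃ n₀ : ℕ,
    1 ≤ n₀ ∧ ∀ (P : Finset Pt) (k : ℕ), Good P → n₀ ≤ #P →
    (#P : ℝ) ^ (4 / 3 - ε) ≤ #(Ed P k) →
    ∃ (Q : Finset Pt) (W : Finset ℕ) (I : ℕ → Set ℝ),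
      Wins κ (#P : ℝ) ((#P : ℝ) ^ (1 / 8 : ℝ)) P k Q W I := by
  classical
  obtain ⟨C1, hC1, pick⟩ := stPick
  obtain ⟨Aw, win⟩ := windows stDey stRank
  set ε : ℝ := κ / (C1 * (Aw + 1)) with hε
  have hAw : (0 : ℝ) ≤ Aw := Nat.cast_nonneg _
  have hε0 : 0 < ε := by positivity
  have hC1ε : C1 * ε * (Aw + 1) = κ := by
    rw [hε]; field_simp
  set x : ℝ := C1 * ε with hx
  have hx0 : 0 < x := by positivity
  have hxκ : x ≤ κ := by nlinarith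
  have hxA : x * Aw ≤ κ := by nlinarith
  have hεC : ε < 1 / C1 := by
    rw [lt_div_iff₀ hC1]
    have : ε * C1 = x := by rw [hx]; ring
    linarith
  obtain ⟨n₁, hn₁⟩ := pick ε hε0 hεC
  obtain ⟨n₂, hn₂1, hn₂⟩ := ev_le 2 hx0
  refine ⟨ε, hε0, max n₁ n₂, le_max_of_le_right hn₂1, fun P k hP hn hEd => ?_⟩
  have hm1 : n₁ ≤ #P := (le_max_left _ _).trans hn
  have hm2 : n₂ ≤ #P := (le_max_right _ _).trans hn
  have hP1 : 1 ≤ #P := hn₂1.trans hm2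
  have hK2 := hn₂ _ hm2
  have hpick := hn₁ P k hP hm1 hEd
  -- abbreviations
  obtain ⟨n, hndef⟩ : ∃ n : ℝ, n = (#P : ℝ) := ⟨_, rfl⟩
  rw [← hx] at hpick
  rw [← hndef] at hK2 hpick ⊢
  have hn1 : 1 ≤ n := by rw [hndef]; exact_mod_cast hP1
  have hn0 : 0 < n := by linarith
  have mono : ∀ {u v : ℝ}, u ≤ v → n ^ u ≤ n ^ v := fun h =>
    Real.rpow_le_rpow_of_exponent_le hn1 h
  have add : ∀ u v : ℝ, n ^ u * n ^ v = n ^ (u + v) := fun u v => (Real.rpow_add hn0 u v).symm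
  have pos : ∀ u : ℝ, 0 < n ^ u := fun u => Real.rpow_pos_of_pos hn0 u
  obtain ⟨Q, hQP, q1, q2, q3, q4⟩ := hpick (n ^ (1 / 8 : ℝ)) (mono (by linarith))
    (mono (by linarith))
  obtain ⟨lam, hlam⟩ : ∃ lam : ℝ, lam = n ^ (1 / 8 : ℝ) := ⟨_, rfl⟩
  rw [← hlam] at q1 q2 q3 q4 ⊢
  have hl0 : 0 < lam := by rw [hlam]; exact pos _
  have hl1 : 1 ≤ lam := by rw [hlam]; exact Real.one_le_rpow hn1 (by norm_num)
  have hl2 : lam ^ 2 = n ^ (1 / 4 : ℝ) := by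
    rw [hlam, ← Real.rpow_natCast, ← Real.rpow_mul hn0.le]; norm_num
  -- the number of points
  have hN : n ^ (3 / 4 - x) ≤ (#Q : ℝ) := by
    have h1 : n ^ (3 / 4 - x) * (n ^ x * lam ^ 2) = n := by
      rw [hl2, add, add]
      have : (3 / 4 - x + (x + 1 / 4) : ℝ) = 1 := by ring
      rw [this, Real.rpow_one]
    have h2 : n ^ (3 / 4 - x) * (n ^ x * lam ^ 2) ≤ #Q * (n ^ x * lam ^ 2) := by
      rw [h1]; linarith
    exact le_of_mul_le_mul_right h2 (mul_pos (pos _) (by positivity))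
  have hQ0 : (0 : ℝ) < #Q := lt_of_lt_of_le (pos _) hN
  have hKA : (n ^ x) ^ Aw ≤ n ^ κ := by
    rw [← Real.rpow_natCast, ← Real.rpow_mul hn0.le]
    exact mono hxA
  have hNl : n ^ (5 / 8 - κ) ≤ #Q / lam := by
    rw [le_div_iff₀ hl0, hlam, add]
    refine le_trans (mono ?_) hN
    linarith
  obtain ⟨W, I, T, w1, w2, w3, w4, w5, w6, w7, w8, w9, w10, w11⟩ := win (n ^ x) lam P k Q hP hQP
    hK2 hl1 (hKA.trans ((mono (by linarith)).trans hNl))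
    (by
      have : n ^ x * lam ^ 2 * (#Q / lam) = n ^ x * lam * #Q := by field_simp
      rw [this]; exact q3)
    q4
  have hTl : ∀ w ∈ W, (#Q : ℝ) / lam ≤ n ^ κ * #(T w) := by
    intro w hw
    rw [div_le_iff₀ hl0]
    refine (w9 w hw).trans ?_
    have : (n ^ x) ^ Aw * lam * #(T w) ≤ n ^ κ * lam * #(T w) := by gcongr
    linarith
  -- the number of edges in a window
  have hT : ∀ w ∈ W, n ^ (5 / 8 - 2 * κ) ≤ #(T w) := by
    intro w hw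
    have h2 : n ^ κ * n ^ (5 / 8 - 2 * κ) ≤ n ^ κ * #(T w) := by
      rw [add]
      refine le_trans (mono ?_) (hNl.trans (hTl w hw))
      linarith
    exact le_of_mul_le_mul_left h2 (pos _)
  have hE2 : ∀ w ∈ W, 2 ≤ #(EdIn P k Q (I w)) := by
    intro w hw
    have h1 := hT w hw
    have h2 : (1 : ℝ) ≤ #(T w) := le_trans (Real.one_le_rpow hn1 (by linarith)) h1
    have h3 : (#(T w) : ℝ) ≤ (#(T w) : ℝ) ^ (4 / 3 : ℝ) := by
      calc (#(T w) : ℝ) = (#(T w) : ℝ) ^ (1 : ℝ) := (Real.rpow_one _).symm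
        _ ≤ _ := Real.rpow_le_rpow_of_exponent_le h2 (by norm_num)
    have h4 : n ^ κ * n ^ (5 / 8 - 3 * κ) ≤ n ^ κ * #(EdIn P k Q (I w)) := by
      rw [add]
      calc n ^ (κ + (5 / 8 - 3 * κ)) ≤ n ^ (5 / 8 - 2 * κ) := mono (by linarith)
        _ ≤ _ := h1
        _ ≤ _ := h3
        _ ≤ _ := w10 w hw
        _ ≤ n ^ κ * #(EdIn P k Q (I w)) := by gcongr
    have h5 := le_of_mul_le_mul_left h4 (pos κ)
    have h6 : (2 : ℝ) ≤ #(EdIn P k Q (I w)) :=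
      hK2.trans ((mono (by linarith)).trans h5)
    exact_mod_cast h6
  refine ⟨Q, W, I, ⟨hQP, hK2.trans (mono hxκ), w1, w2, (mono (by linarith)).trans hN,
    w3.trans (by gcongr), w4.trans (by gcongr), fun w hw => ?_, fun w hw => ?_, fun w hw => ?_,
    hE2, ?_⟩⟩
  · rw [← w6 w hw]
    refine (w8 w hw).trans ?_
    gcongr
  · rw [← w6 w hw]
    have := w7 w hw
    omega
  · calc ((#Q : ℝ) / lam) ^ (4 / 3 : ℝ) ≤ (n ^ κ * #(T w)) ^ (4 / 3 : ℝ) :=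
          Real.rpow_le_rpow (by positivity) (hTl w hw) (by norm_num)
      _ = n ^ (κ * (4 / 3)) * (#(T w) : ℝ) ^ (4 / 3 : ℝ) := by
          rw [Real.mul_rpow (pos _).le (by positivity), ← Real.rpow_mul hn0.le]
      _ ≤ n ^ (κ * (4 / 3)) * (n ^ κ * #(EdIn P k Q (I w))) := by
          have := w10 w hw
          have h7 : (n ^ x) ^ Aw * (#(EdIn P k Q (I w)) : ℝ) ≤ n ^ κ * #(EdIn P k Q (I w)) := by
            gcongr
          exact mul_le_mul_of_nonneg_left (this.trans h7) (pos _).le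
      _ = n ^ (κ * (4 / 3) + κ) * #(EdIn P k Q (I w)) := by rw [← mul_assoc, add]
      _ ≤ n ^ (3 * κ) * #(EdIn P k Q (I w)) := by
          refine mul_le_mul_of_nonneg_right (mono ?_) (by positivity)
          linarith
  · calc (#(EdBd P k Q Set.univ) : ℝ) ≤ n ^ x * lam * #Q := q3
      _ ≤ n ^ κ * lam * #Q := by
          have := mono hxκ
          gcongr
      _ = n ^ κ * (lam * #Q) := by ring

/-- the choice of the interval of a window -/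
theorem exists_ab {κ lam : ℝ} {A : ℕ} {P : Finset Pt} {k : ℕ} {Q : Finset Pt} {W : Finset ℕ}
    {I : ℕ → Set ℝ} (hP : Good P) (hIC : IC P A) (h : Wins κ (#P : ℝ) lam P k Q W I) :
    ∃ a b : ℕ → ℝ, ∀ w ∈ W, a w ∈ I w ∧ b w ∈ I w ∧
      EdIn P k Q (I w) = EdIn P k Q (Set.Icc (a w) (b w)) ∧
      1 ≤ 4 * ((#P : ℝ) ^ A) ^ 2 * (b w - a w) ∧ -(2 * (#P : ℝ) ^ A) ≤ a w ∧
      a w ≤ 2 * (#P : ℝ) ^ A ∧ b w ≤ 2 * (#P : ℝ) ^ A := by
  have hex : ∀ w, ∃ ab : ℝ × ℝ, w ∈ W → ab.1 ∈ I w ∧ ab.2 ∈ I w ∧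
      EdIn P k Q (I w) = EdIn P k Q (Set.Icc ab.1 ab.2) ∧
      1 ≤ 4 * ((#P : ℝ) ^ A) ^ 2 * (ab.2 - ab.1) ∧ -(2 * (#P : ℝ) ^ A) ≤ ab.1 ∧
      ab.1 ≤ 2 * (#P : ℝ) ^ A ∧ ab.2 ≤ 2 * (#P : ℝ) ^ A := by
    intro w
    by_cases hw : w ∈ W
    · obtain ⟨a, b, h⟩ := exists_Icc hP hIC (h.conn w hw) (h.two w hw)
      exact ⟨(a, b), fun _ => h⟩
    · exact ⟨(0, 0), fun h => absurd h hw⟩
  choose ab hab using hex
  exact ⟨fun w => (ab w).1, fun w => (ab w).2, hab⟩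

/-- **RAW**: disjoint windows of one popular length -/
theorem raw (A : ℕ) {κ : ℝ} (hκ : 0 < κ) (hκ1 : κ < 1 / 100) : ∃ ε : ℝ, 0 < ε ∧ ∃ n₀ : ℕ,
    1 ≤ n₀ ∧ ∀ (P : Finset Pt) (k : ℕ), Good P → IC P A → n₀ ≤ #P →
    (#P : ℝ) ^ (4 / 3 - ε) ≤ #(Ed P k) →
    ∃ (Q : Finset Pt) (W : Finset ℕ) (a b : ℕ → ℝ) (N θ : ℝ),
      Raw A κ (#P : ℝ) ((#P : ℝ) ^ (1 / 8 : ℝ)) N θ P k Q W a b := by
  classical
  obtain ⟨ε, hε0, n₁, hn₁1, hn₁⟩ := wins hκ hκ1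
  obtain ⟨n₃, hn₃1, hn₃⟩ := ev_log (5 + 4 * A) (8 * A) (by positivity) hκ
  refine ⟨ε, hε0, max n₁ n₃, le_max_of_le_left hn₁1, fun P k hP hIC hn hEd => ?_⟩
  have hm1 : n₁ ≤ #P := (le_max_left _ _).trans hn
  have hm3 : n₃ ≤ #P := (le_max_right _ _).trans hn
  have hP1 : 1 ≤ #P := hn₁1.trans hm1
  have hlog := hn₃ _ hm3
  obtain ⟨Z, hZ1, hZ2⟩ := dyad A (#P) hP1
  obtain ⟨Q, W, I, h⟩ := hn₁ P k hP hm1 hEd
  obtain ⟨a, b, hab⟩ := exists_ab hP hIC h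
  have hl0' : (0 : ℝ) < (#P : ℝ) ^ (1 / 8 : ℝ) :=
    Real.rpow_pos_of_pos (by exact_mod_cast hP1) _
  obtain ⟨lam, hlam⟩ : ∃ lam : ℝ, lam = (#P : ℝ) ^ (1 / 8 : ℝ) := ⟨_, rfl⟩
  rw [← hlam] at h hl0' ⊢
  obtain ⟨n, hndef⟩ : ∃ n : ℝ, n = (#P : ℝ) := ⟨_, rfl⟩
  rw [← hndef] at hlog hZ1 hZ2 h hab ⊢
  have hn1 : 1 ≤ n := by rw [hndef]; exact_mod_cast hP1
  have hn0 : 0 < n := by linarith
  have add : ∀ u v : ℝ, n ^ u * n ^ v = n ^ (u + v) := fun u v => (Real.rpow_add hn0 u v).symm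
  have pos : ∀ u : ℝ, 0 < n ^ u := fun u => Real.rpow_pos_of_pos hn0 u
  have hW0 : W.Nonempty := by
    rw [← card_pos]
    by_contra hc
    have h0 : #W = 0 := by omega
    have w4 := h.cardW'
    rw [h0] at w4
    simp only [Nat.cast_zero, mul_zero] at w4
    have : 0 < lam ^ 2 := by positivity
    linarith
  obtain ⟨z, z1, ⟨w₀, hw₀⟩⟩ := popular hW0 (fun w => b w - a w) Z (by
    intro w hw
    obtain ⟨-, -, -, h1, h2, h3, h4⟩ := hab w hw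
    constructor
    · rw [div_le_iff₀ (by positivity)]
      have hpos : 0 < b w - a w := by
        by_contra hc
        push Not at hc
        have : 4 * (n ^ A) ^ 2 * (b w - a w) ≤ 0 :=
          mul_nonpos_of_nonneg_of_nonpos (by positivity) hc
        linarith
      calc (1 : ℝ) ≤ 4 * (n ^ A) ^ 2 * (b w - a w) := h1
        _ ≤ 2 ^ Z * (b w - a w) := mul_le_mul_of_nonneg_right hZ1 hpos.le
        _ = _ := by ring
    · have h5 : 1 ≤ n ^ A := one_le_pow₀ hn1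
      have h6 : b w - a w ≤ 4 * n ^ A := by linarith
      refine h6.trans (le_trans ?_ hZ1)
      nlinarith)
  obtain ⟨θ, hθ⟩ : ∃ θ : ℝ, θ = (2 : ℝ) ^ z := ⟨_, rfl⟩
  have hθ0 : 0 < θ := by rw [hθ]; positivity
  rw [← hθ] at z1 hw₀
  obtain ⟨W', hW'⟩ : ∃ W' : Finset ℕ, W' = {w ∈ W | θ ≤ b w - a w ∧ b w - a w ≤ 2 * θ} :=
    ⟨_, rfl⟩
  rw [← hW'] at z1 hw₀
  have memW' : ∀ w ∈ W', w ∈ W ∧ θ ≤ b w - a w ∧ b w - a w ≤ 2 * θ := by
    intro w hw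
    simpa only [hW', mem_filter] using hw
  have hIcc : ∀ w ∈ W, Set.Icc (a w) (b w) ⊆ I w := fun w hw =>
    (h.conn w hw).out (hab w hw).1 (hab w hw).2.1
  obtain ⟨m1, m2, m3⟩ := memW' w₀ hw₀
  obtain ⟨-, -, -, h1, h2, h3, h4⟩ := hab w₀ m1
  refine ⟨Q, W', a, b, #Q, θ, ⟨h.sub, rfl, hθ0, ?_,
    by linarith, fun w hw => (memW' w hw).2, ?_, ?_, h.Nlow, ?_, ?_, ?_, ?_, ?_, h.glob⟩⟩
  · have h5 : 4 * (n ^ A) ^ 2 * (b w₀ - a w₀) ≤ 4 * (n ^ A) ^ 2 * (2 * θ) :=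
      mul_le_mul_of_nonneg_left m3 (by positivity)
    linarith
  · intro w hw
    exact ⟨(hab w (memW' w hw).1).2.2.2.2.1, (hab w (memW' w hw).1).2.2.2.2.2.1⟩
  · intro w hw w' hw' hne
    exact disj_Icc (h.conn w (memW' w hw).1) (h.conn w' (memW' w' hw').1)
      (h.disj w (memW' w hw).1 w' (memW' w' hw').1 hne) (hab w (memW' w hw).1).1
      (hab w (memW' w hw).1).2.1 (hab w' (memW' w' hw').1).1 (hab w' (memW' w' hw').1).2.1
      (by linarith [(memW' w hw).2.1]) (by linarith [(memW' w' hw').2.1])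
  · have h5 : (#W' : ℝ) ≤ #W := by rw [hW']; exact_mod_cast card_filter_le _ _
    exact h5.trans h.cardW
  · have h5 : (#W : ℝ) ≤ (2 * Z + 1) * #W' := by exact_mod_cast z1
    calc lam ^ 2 ≤ n ^ κ * #W := h.cardW'
      _ ≤ n ^ κ * (n ^ κ * #W') := by
          refine mul_le_mul_of_nonneg_left (h5.trans ?_) (pos _).le
          exact mul_le_mul_of_nonneg_right (hZ2.trans hlog) (by positivity)
      _ = n ^ (2 * κ) * #W' := by rw [← mul_assoc, add, two_mul]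
  · intro w hw
    have hw' := (memW' w hw).1
    rw [← Tch_congr (hab w hw').2.2.1]
    exact h.tch w hw'
  · intro w hw
    have hw' := (memW' w hw).1
    have h5 : #(EdBd P k Q (Set.Icc (a w) (b w))) ≤ #(Tch P k Q (I w)) :=
      (card_le_card (EdBd_mono_set (hIcc w hw'))).trans (h.bd w hw')
    have h6 : (#(EdBd P k Q (Set.Icc (a w) (b w))) : ℝ) ≤ #(Tch P k Q (I w)) := by
      exact_mod_cast h5
    exact (mul_le_mul_of_nonneg_left h6 hl0'.le).trans (h.tch w hw')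
  · intro w hw
    have hw' := (memW' w hw).1
    rw [← (hab w hw').2.2.1]
    exact h.ed w hw'

end Vale.Agent.P065.UB.H855
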