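import Vale.Agent.P065.UB.H855.Start
import Vale.Agent.P065.UB.H616.Lov

/-!
# P065, upper bound, block P-NORM: the two one-dimensional steps, slabs (helper855)
-/

set_option autoImplicit false

namespace Vale.Agent.P065.UB.H855

open Finset

variable {A : ℕ} {κ n lam N θ : ℝ} {P : Finset Pt} {k : ℕ} {Q : Finset Pt} {W : Finset ℕ}
  {a b : ℕ → ℝ}

/-- different windows have different positions -/
theorem Raw.sep (h : Raw A κ n lam N θ P k Q W a b) {w w' : ℕ} (hw : w ∈ W) (hw' : w' ∈ W)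
    (hne : w ≠ w') : θ < |a w - a w'| := by
  have h1 := h.len w hw
  have h2 := h.len w' hw'
  rcases h.disj w hw w' hw' hne with h3 | h3
  · rw [abs_sub_comm]
    exact lt_of_lt_of_le (by linarith) (le_abs_self _)
  · exact lt_of_lt_of_le (by linarith) (le_abs_self _)

theorem time_step (h : Raw A κ n lam N θ P k Q W a b) (f : ℕ → ℝ) (J : ℕ)
    (G : ℝ) (hf0 : f 0 ≤ #W) (hfJ : 1 < f J) (hGJ : 4 * n ^ A / G ^ J ≤ θ) :
    ∃ j < J, ∃ t, f j ≤ #{w ∈ W | t ≤ a w ∧ a w ≤ t + 4 * n ^ A / G ^ j} ∧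
      ∀ x, (#{w ∈ W | x ≤ a w ∧ a w ≤ x + 4 * n ^ A / G ^ (j + 1)} : ℝ) < f (j + 1) := by
  refine oned W a f J (4 * n ^ A) G ⟨-(2 * n ^ A), ?_⟩ fun t => ?_
  · have : ({w ∈ W | -(2 * n ^ A) ≤ a w ∧ a w ≤ -(2 * n ^ A) + 4 * n ^ A} : Finset ℕ) = W := by
      rw [filter_eq_self]
      intro w hw
      have := h.rng w hw
      exact ⟨this.1, by linarith⟩
    rw [this]
    exact hf0
  · refine lt_of_le_of_lt ?_ hfJ
    have : #{w ∈ W | t ≤ a w ∧ a w ≤ t + 4 * n ^ A / G ^ J} ≤ 1 := by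
      rw [card_le_one]
      intro w hw w' hw'
      rw [mem_filter] at hw hw'
      by_contra hne
      have h1 := h.sep hw.1 hw'.1 hne
      have h2 : |a w - a w'| ≤ θ := by
        rw [abs_le]
        constructor <;> linarith [hw.2.1, hw.2.2, hw'.2.1, hw'.2.2]
      linarith
    exact_mod_cast this

theorem mem_EdIn' {I : Set ℝ} {e : Pt × Pt} (he : e ∈ EdIn P k Q I) :
    e ∈ Ed P k ∧ e.1 ∈ Q ∧ e.2 ∈ Q ∧ sl e.1 e.2 ∈ I := by
  classical
  simpa only [EdIn, mem_filter] using he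

theorem space_step (h : Raw A κ n lam N θ P k Q W a b) (hP : Good P) (hIC : IC P A)
    (hn : n = #P) {W1 : Finset ℕ} (f : ℕ → ℝ) (J : ℕ) (G : ℝ)
    (hf0 : f 0 ≤ ∑ w ∈ W1, (#(EdIn P k Q (Set.Icc (a w) (b w))) : ℝ))
    (hfJ : #W1 * N < f J) (hGJ : 2 * n ^ A / G ^ J < 1) :
    ∃ j < J, ∃ u, f j ≤ ∑ w ∈ W1,
        (#{e ∈ EdIn P k Q (Set.Icc (a w) (b w)) | u ≤ e.1.1 ∧
          e.1.1 ≤ u + 2 * n ^ A / G ^ j} : ℝ) ∧
      ∀ x, ∑ w ∈ W1, (#{e ∈ EdIn P k Q (Set.Icc (a w) (b w)) | x ≤ e.1.1 ∧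
          e.1.1 ≤ x + 2 * n ^ A / G ^ (j + 1)} : ℝ) < f (j + 1) := by
  classical
  refine oned_sum W1 (fun w => EdIn P k Q (Set.Icc (a w) (b w))) (fun e => e.1.1) f J
    (2 * n ^ A) G ⟨-(n ^ A), ?_⟩ fun t => ?_
  · refine hf0.trans (le_of_eq (sum_congr rfl fun w _ => ?_))
    have : ({e ∈ EdIn P k Q (Set.Icc (a w) (b w)) | -(n ^ A) ≤ e.1.1 ∧
        e.1.1 ≤ -(n ^ A) + 2 * n ^ A} : Finset (Pt × Pt)) = EdIn P k Q (Set.Icc (a w) (b w)) := by
      rw [filter_eq_self]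
      intro e he
      obtain ⟨x, y, h1, h2, -⟩ := hIC e.1 (h.sub (mem_EdIn' he).2.1)
      rw [h1]
      have h3 : |(x : ℝ)| ≤ n ^ A := by rw [hn]; exact_mod_cast h2
      have := abs_le.1 h3
      exact ⟨this.1, by linarith [this.2]⟩
    rw [this]
  · refine lt_of_le_of_lt ?_ hfJ
    have : ∀ w ∈ W1, (#{e ∈ EdIn P k Q (Set.Icc (a w) (b w)) | t ≤ e.1.1 ∧
        e.1.1 ≤ t + 2 * n ^ A / G ^ J} : ℝ) ≤ N := by
      intro w _
      rw [h.N_eq]
      have : #{e ∈ EdIn P k Q (Set.Icc (a w) (b w)) | t ≤ e.1.1 ∧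
        e.1.1 ≤ t + 2 * n ^ A / G ^ J} ≤ #Q := by
        refine card_le_card_of_injOn (fun e => e.2) (fun e he => ?_) fun e he e' he' hee => ?_
        · rw [mem_coe, mem_filter] at he
          exact (mem_EdIn' he.1).2.2.1
        · rw [mem_coe, mem_filter] at he he'
          obtain ⟨x, y, h1, h2, -⟩ := hIC e.1 (h.sub (mem_EdIn' he.1).2.1)
          obtain ⟨x', y', h1', h2', -⟩ := hIC e'.1 (h.sub (mem_EdIn' he'.1).2.1)
          have e1 : e.1.1 = x := by rw [h1]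
          have e1' : e'.1.1 = x' := by rw [h1']
          have hxx : x = x' := by
            have a1 : (x : ℝ) < x' + 1 := by linarith [he.2.2, he'.2.1]
            have a2 : (x' : ℝ) < x + 1 := by linarith [he.2.1, he'.2.2]
            have b1 : x < x' + 1 := by exact_mod_cast a1
            have b2 : x' < x + 1 := by exact_mod_cast a2
            omega
          have h3 : e.1 = e'.1 := hP.xinj _ (h.sub (mem_EdIn' he.1).2.1) _
            (h.sub (mem_EdIn' he'.1).2.1) (by rw [e1, e1', hxx])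
          exact Prod.ext h3 hee
      exact_mod_cast this
    calc _ ≤ ∑ _w ∈ W1, N := sum_le_sum this
      _ = #W1 * N := by rw [sum_const, nsmul_eq_mul]

open Classical in
/-- the part of `Q` over an interval -/
noncomputable def Slab (Q : Finset Pt) (u l : ℝ) : Finset Pt := {p ∈ Q | u ≤ p.1 ∧ p.1 ≤ u + l}

theorem mem_Slab {u l : ℝ} {p : Pt} : p ∈ Slab Q u l ↔ p ∈ Q ∧ u ≤ p.1 ∧ p.1 ≤ u + l := by
  classical
  simp only [Slab, mem_filter]

theorem Slab_sub (u l : ℝ) : Slab Q u l ⊆ Q := fun _ hp => (mem_Slab.1 hp).1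

theorem EdIn_mono_Q {Q' : Finset Pt} {I : Set ℝ} (h : Q' ⊆ Q) : EdIn P k Q' I ⊆ EdIn P k Q I := by
  classical
  intro e he
  simp only [EdIn, mem_filter] at he ⊢
  exact ⟨he.1, h he.2.1, h he.2.2.1, he.2.2.2⟩

theorem Tch_mono_Q {Q' : Finset Pt} {I : Set ℝ} (h : Q' ⊆ Q) : Tch P k Q' I ⊆ Tch P k Q I := by
  classical
  intro v hv
  simp only [Tch, mem_filter] at hv ⊢
  obtain ⟨h1, e, he, h2⟩ := hv
  exact ⟨h h1, e, EdIn_mono_Q h he, h2⟩

theorem slab_bd (hP : Good P) (hQ : Q ⊆ P) {I : Set ℝ} (hI : I.OrdConnected) (u l : ℝ) :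
    #(EdBd P k (Slab Q u l) I) ≤ 4 * #(Tch P k Q I) + 5 * #(EdBd P k Q I) := by
  classical
  have h1 : H616.IsHP (fun v : Pt => -1 * v.1 + 0 * v.2 ≤ -u) := H616.isHP_lin _ _ _
  have h2 : H616.IsHP (fun v : Pt => 1 * v.1 + 0 * v.2 ≤ u + l) := H616.isHP_lin _ _ _
  have := H616.lov_box hP k hQ hI (R := (Finset.univ : Finset Bool))
    (fun i => if i then (fun v : Pt => -1 * v.1 + 0 * v.2 ≤ -u)
      else (fun v : Pt => 1 * v.1 + 0 * v.2 ≤ u + l))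
    (fun i _ => by
      cases i with
      | false => exact h2
      | true => exact h1)
    (B := Slab Q u l) (fun v => by
      rw [mem_Slab]
      simp only [mem_univ, true_imp_iff, Bool.forall_bool, if_true, Bool.false_eq_true, if_false]
      constructor
      · rintro ⟨h3, h4, h5⟩
        exact ⟨h3, by linarith, by linarith⟩
      · rintro ⟨h3, h4, h5⟩
        exact ⟨h3, by linarith, by linarith⟩)
  rw [card_univ, Fintype.card_bool] at this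
  omega

theorem slab_ed (hP : Good P) (hQ : Q ⊆ P) {I : Set ℝ} (hI : I.OrdConnected) (u l : ℝ) :
    #{e ∈ EdIn P k Q I | u ≤ e.1.1 ∧ e.1.1 ≤ u + l} ≤
      #(EdIn P k (Slab Q u l) I) + (2 * #(Tch P k Q I) + 2 * #(EdBd P k Q I)) := by
  classical
  have h2 : H616.IsHP (fun v : Pt => 1 * v.1 + 0 * v.2 ≤ u + l) := H616.isHP_lin _ _ _
  have h3 := H616.lov hP k hQ hI h2
  refine le_trans ?_ (Nat.add_le_add_left h3 _)
  refine le_trans (card_le_card ?_) (card_union_le _ _)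
  intro e he
  rw [mem_filter] at he
  obtain ⟨h4, h5, h6⟩ := he
  have hlt := H616.edIn_lt h4
  rw [mem_union]
  have hm := mem_EdIn' h4
  by_cases h7 : e.2.1 ≤ u + l
  · left
    simp only [EdIn, mem_filter]
    exact ⟨hm.1, mem_Slab.2 ⟨hm.2.1, h5, h6⟩, mem_Slab.2 ⟨hm.2.2.1, by linarith, h7⟩, hm.2.2.2⟩
  · right
    simp only [H616.Cr, mem_filter]
    refine ⟨h4, fun hh => h7 ?_⟩
    have := hh.1 (by linarith)
    linarith

/-- many large terms -/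
theorem large_terms (W1 : Finset ℕ) (E : ℕ → ℝ) {U v S : ℝ}
    (hup : ∀ w ∈ W1, E w ≤ U) (hS : S ≤ ∑ w ∈ W1, E w) (hv : #W1 * v ≤ S / 2) (hv0 : 0 ≤ v) :
    S / 2 ≤ #{w ∈ W1 | v ≤ E w} * U := by
  have h1 := sum_filter_add_sum_filter_not W1 (fun w => v ≤ E w) E
  have h2 : ∑ w ∈ W1 with v ≤ E w, E w ≤ #{w ∈ W1 | v ≤ E w} * U := by
    calc ∑ w ∈ W1 with v ≤ E w, E w ≤ ∑ w ∈ W1 with v ≤ E w, U :=
          sum_le_sum fun w hw => hup w (mem_filter.1 hw).1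
      _ = _ := by rw [sum_const, nsmul_eq_mul]
  have h3 : ∑ w ∈ W1 with ¬ v ≤ E w, E w ≤ #W1 * v := by
    calc ∑ w ∈ W1 with ¬ v ≤ E w, E w ≤ ∑ w ∈ W1 with ¬ v ≤ E w, v :=
          sum_le_sum fun w hw => (not_le.1 (mem_filter.1 hw).2).le
      _ = #{w ∈ W1 | ¬ v ≤ E w} * v := by rw [sum_const, nsmul_eq_mul]
      _ ≤ #W1 * v := by
          refine mul_le_mul_of_nonneg_right ?_ hv0
          exact_mod_cast card_filter_le _ _
  linarith

/-- the upper bound on the edges of a window -/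
theorem ed_up : ∃ C : ℝ, 0 < C ∧ ∀ (P : Finset Pt) (k : ℕ) (Q : Finset Pt) (I : Set ℝ), Good P →
    Q ⊆ P → I.OrdConnected → ∀ y : ℝ, (#(Tch P k Q I) : ℝ) ≤ y → (#(EdBd P k Q I) : ℝ) ≤ y →
    (#(EdIn P k Q I) : ℝ) ≤ C * y ^ (4 / 3 : ℝ) := by
  obtain ⟨C, hC, dey⟩ := stDey
  refine ⟨2 * C, by positivity, fun P k Q I hP hQ hI y h1 h2 => ?_⟩
  have hy : 0 ≤ y := le_trans (Nat.cast_nonneg _) h1
  refine (dey P k Q I hP hQ hI).trans ?_
  have h3 : (#(Tch P k Q I) : ℝ) * (#(Tch P k Q I) + #(EdBd P k Q I)) ≤ 2 * y ^ 2 := by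
    calc (#(Tch P k Q I) : ℝ) * (#(Tch P k Q I) + #(EdBd P k Q I)) ≤ y * (y + y) :=
          mul_le_mul h1 (by linarith) (by positivity) hy
      _ = 2 * y ^ 2 := by ring
  have h4 := Real.rpow_le_rpow (by positivity) h3 (show (0 : ℝ) ≤ 2 / 3 by norm_num)
  rw [Win266.rp23 hy (by norm_num)] at h4
  have h5 : (2 : ℝ) ^ (2 / 3 : ℝ) ≤ 2 := Win266.rp_le_self (by norm_num) (by norm_num)
  have h6 : (2 : ℝ) ^ (2 / 3 : ℝ) * y ^ (4 / 3 : ℝ) ≤ 2 * y ^ (4 / 3 : ℝ) :=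
    mul_le_mul_of_nonneg_right h5 (by positivity)
  calc C * ((#(Tch P k Q I) : ℝ) * (#(Tch P k Q I) + #(EdBd P k Q I))) ^ (2 / 3 : ℝ)
      ≤ C * (2 * y ^ (4 / 3 : ℝ)) := mul_le_mul_of_nonneg_left (h4.trans h6) hC.le
    _ = 2 * C * y ^ (4 / 3 : ℝ) := by ring

end Vale.Agent.P065.UB.H855
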